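import Mathlib

/-! An injective holomorphic function has nonvanishing derivative. -/

open Set Filter Topology Metric Complex

namespace Vale.Agent.P142

theorem deriv_ne_zero_of_injOn {f : ℂ → ℂ} {U : Set ℂ} {a : ℂ} (hU : U ∈ 𝓝 a)
    (hf : AnalyticAt ℂ f a) (hi : InjOn f U) : deriv f a ≠ 0 := by
  intro h0
  have ha : a ∈ U := mem_of_mem_nhds hU
  have hF : AnalyticAt ℂ (fun z => f z - f a) a := hf.sub analyticAt_const
  have hne : ¬∀ᶠ z in 𝓝 a, f z - f a = 0 := by
    intro h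
    have h1 : ∀ᶠ z in 𝓝[≠] a, z = a :=
      ((h.and hU).filter_mono nhdsWithin_le_nhds).mono fun z hz =>
        hi hz.2 ha (sub_eq_zero.1 hz.1)
    obtain ⟨z, hz1, hz2⟩ := (h1.and self_mem_nhdsWithin).exists
    exact hz2 hz1
  obtain ⟨k, g, hg, hg0, he⟩ := hF.exists_eventuallyEq_pow_smul_nonzero_iff.2 hne
  have hk0 : k ≠ 0 := by
    rintro rfl
    have := he.self_of_nhds
    simp only [sub_self, pow_zero, one_smul] at this
    exact hg0 this.symm
  have hk1 : k ≠ 1 := by
    rintro rfl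
    have d1 : HasDerivAt (fun z => f z - f a) (deriv f a) a :=
      hf.differentiableAt.hasDerivAt.sub_const _
    have d2 : HasDerivAt (fun z => (z - a) ^ 1 • g z) (g a) a := by
      have := HasDerivAt.fun_mul ((hasDerivAt_id' a).sub_const a) hg.differentiableAt.hasDerivAt
      simp only [pow_one, smul_eq_mul]
      exact this.congr_deriv (by simp)
    have := d1.unique (d2.congr_of_eventuallyEq he)
    exact hg0 (by rw [← this, h0])
  have hkc : (k : ℂ) ≠ 0 := by exact_mod_cast hk0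
  set φ : ℂ → ℂ := fun z => (z - a) * exp (log (g z / g a) / k) with hφ
  have hl : AnalyticAt ℂ (fun z => exp (log (g z / g a) / k)) a := by
    refine AnalyticAt.cexp (AnalyticAt.div ?_ analyticAt_const hkc)
    refine AnalyticAt.clog (hg.div analyticAt_const hg0) ?_
    rw [div_self hg0]; exact one_mem_slitPlane
  have hφa : φ a = 0 := by simp [hφ]
  have hφd : HasStrictDerivAt φ 1 a := by
    have hA : AnalyticAt ℂ φ a := (analyticAt_id.sub analyticAt_const).mul hl
    have := HasDerivAt.fun_mul ((hasDerivAt_id' a).sub_const a) hl.differentiableAt.hasDerivAt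
    have e : deriv φ a = 1 := this.deriv.trans (by simp [div_self hg0])
    exact e ▸ hA.hasStrictDerivAt
  have hmap := hφd.map_nhds_eq one_ne_zero
  rw [hφa] at hmap
  have hV : {z | z ∈ U ∧ f z - f a = φ z ^ k * g a} ∈ 𝓝 a := by
    filter_upwards [hU, he, hg.continuousAt.eventually_ne hg0] with z h1 h2 h3
    refine ⟨h1, ?_⟩
    rw [h2, hφ, mul_pow, ← exp_nat_mul, mul_div_cancel₀ _ hkc, exp_log (div_ne_zero h3 hg0),
      smul_eq_mul]
    field_simp
  have hW := image_mem_map (m := φ) hV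
  rw [hmap] at hW
  obtain ⟨ε, hε, hb⟩ := Metric.mem_nhds_iff.1 hW
  have hζ := Complex.isPrimitiveRoot_exp k hk0
  set ζ := exp (2 * Real.pi * I / k) with hζd
  have hn : ‖ζ‖ = 1 := hζ.norm'_eq_one hk0
  have hw : ‖((ε / 2 : ℝ) : ℂ)‖ < ε := by
    rw [norm_real, Real.norm_of_nonneg (by positivity)]; linarith
  obtain ⟨z₁, ⟨u1, e1⟩, p1⟩ := hb (mem_ball_zero_iff.2 hw)
  obtain ⟨z₂, ⟨u2, e2⟩, p2⟩ := hb (a := ζ * ((ε / 2 : ℝ) : ℂ))
    (mem_ball_zero_iff.2 (by rw [norm_mul, hn, one_mul]; exact hw))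
  have : z₁ = z₂ := hi u1 u2 (by
    rw [p1] at e1
    rw [p2, mul_pow, hζ.pow_eq_one, one_mul] at e2
    linear_combination e1 - e2)
  rw [this, p2] at p1
  have hε' : ((ε / 2 : ℝ) : ℂ) ≠ 0 := by exact_mod_cast (by positivity : ε / 2 ≠ 0)
  exact hζ.ne_one (by omega) (mul_right_cancel₀ hε' (by rw [p1, one_mul]))

end Vale.Agent.P142
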