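import Vale.Agent.P142.Green
import Vale.Agent.P142.Inj

/-! The area theorem for `1 / (f w - f z)`. -/

open Set Filter Topology Metric Complex Real MeasureTheory
open scoped ComplexConjugate

namespace Vale.Agent.P142

/-- univalent in the unit disc -/
structure Un (f : ℂ → ℂ) : Prop where
  an : An f
  inj : InjOn f (ball 0 1)

noncomputable def uu (f : ℂ → ℂ) (z : ℂ) : ℂ := (deriv f z)⁻¹

noncomputable def PP (f : ℂ → ℂ) (z w : ℂ) : ℂ := (dslope f z w)⁻¹

noncomputable def HH (f : ℂ → ℂ) (z : ℂ) : ℂ → ℂ := dslope (PP f z) z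

variable {f g : ℂ → ℂ} {z w : ℂ} {r ρ : ℝ}

theorem Un.der_ne (hf : Un f) (hz : z ∈ ball (0 : ℂ) 1) : deriv f z ≠ 0 :=
  deriv_ne_zero_of_injOn (isOpen_ball.mem_nhds hz) (hf.an.analyticAt (isOpen_ball.mem_nhds hz))
    hf.inj

theorem Un.u_an (hf : Un f) : An (uu f) := hf.an.der.inv fun _ hz => hf.der_ne hz

theorem An.ds (hg : An g) (hz : z ∈ ball (0 : ℂ) 1) : An (dslope g z) :=
  (differentiableOn_dslope (isOpen_ball.mem_nhds hz)).2 hg

theorem Un.sub_ne (hf : Un f) (hz : z ∈ ball (0 : ℂ) 1) (hw : w ∈ ball (0 : ℂ) 1) (h : w ≠ z) :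
    f w - f z ≠ 0 := fun e => h (hf.inj hw hz (sub_eq_zero.1 e))

theorem Un.Q_ne (hf : Un f) (hz : z ∈ ball (0 : ℂ) 1) (hw : w ∈ ball (0 : ℂ) 1) :
    dslope f z w ≠ 0 := by
  rcases eq_or_ne w z with rfl | h
  · rw [dslope_same]
    exact hf.der_ne hz
  · intro e
    have := sub_smul_dslope f z w
    rw [e, smul_zero] at this
    exact hf.sub_ne hz hw h this.symm

theorem Un.H_an (hf : Un f) (hz : z ∈ ball (0 : ℂ) 1) : An (HH f z) :=
  An.ds ((hf.an.ds hz).inv fun _ hw => hf.Q_ne hz hw) hz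

theorem Un.G_eq (hf : Un f) (hz : z ∈ ball (0 : ℂ) 1) (hw : w ∈ ball (0 : ℂ) 1) (h : w ≠ z) :
    (f w - f z)⁻¹ = HH f z w + uu f z * (w - z)⁻¹ := by
  have h1 := sub_smul_dslope f z w
  have h2 := sub_smul_dslope (PP f z) z w
  have h3 : PP f z z = uu f z := by rw [PP, dslope_same, uu]
  have h4 := hf.Q_ne hz hw
  have h5 := sub_ne_zero.2 h
  rw [h3, smul_eq_mul] at h2
  rw [smul_eq_mul] at h1
  rw [← h1, HH, mul_inv, ← PP, eq_add_of_sub_eq h2.symm]
  field_simp

theorem Un.G_der (hf : Un f) (hz : z ∈ ball (0 : ℂ) 1) (hw : w ∈ ball (0 : ℂ) 1) (h : w ≠ z) :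
    -deriv f w / (f w - f z) ^ 2 = deriv (HH f z) w - uu f z * ((w - z)⁻¹) ^ 2 := by
  have h1 : HasDerivAt (fun w => (f w - f z)⁻¹) (-deriv f w / (f w - f z) ^ 2) w :=
    ((hf.an.at hw).hasDerivAt.sub_const (f z)).inv (hf.sub_ne hz hw h)
  have h2 : HasDerivAt (fun w => HH f z w + uu f z * (w - z)⁻¹)
      (deriv (HH f z) w + uu f z * (-1 / (w - z) ^ 2)) w :=
    ((hf.H_an hz).at hw).hasDerivAt.add
      ((((hasDerivAt_id w).sub_const z).inv (sub_ne_zero.2 h)).const_mul _)
  have h3 : (fun w => (f w - f z)⁻¹) =ᶠ[𝓝 w] fun w => HH f z w + uu f z * (w - z)⁻¹ := by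
    filter_upwards [isOpen_ball.mem_nhds hw, isOpen_ne.mem_nhds h] with v hv hv'
    exact hf.G_eq hz hv hv'
  rw [h1.unique (h2.congr_of_eventuallyEq h3), inv_pow, div_eq_mul_inv]
  ring

theorem av_re (h0 : 0 < r) (hg : Co g r) :
    circleAverage (fun w => (g w).re) 0 r = (circleAverage g 0 r).re :=
  reCLM.circleAverage_comp_comm (hg.circleIntegrable h0.le)

theorem av_conj (h0 : 0 < r) (hg : Co g r) :
    circleAverage (fun w => conj (g w)) 0 r = conj (circleAverage g 0 r) :=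
  (conjCLE : ℂ →L[ℝ] ℂ).circleAverage_comp_comm (hg.circleIntegrable h0.le)

theorem cauchy' (h0 : 0 < r) (hg : DifferentiableOn ℂ g (closedBall 0 r)) (hz : ‖z‖ < r) :
    circleAverage (fun w => w * (w - z)⁻¹ * g w) 0 r = g z := by
  have := DiffContOnCl.circleAverage_smul_div (f := g) (c := 0) (R := r) (w := z)
    (by rw [abs_of_pos h0]; exact (hg.mono closure_ball_subset_closedBall).diffContOnCl)
    (by rw [abs_of_pos h0]; simpa using hz)
  simpa only [sub_zero, smul_eq_mul, div_eq_mul_inv] using this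

theorem sph_ne' (hz : ‖z‖ < r) (hw : w ∈ sphere (0 : ℂ) r) : w ≠ z := by
  rintro rfl
  simp only [mem_sphere_iff_norm, sub_zero] at hw
  exact hz.ne hw

theorem co_inv (hz : ‖z‖ < r) : Co (fun w => (w - z)⁻¹) r :=
  (continuousOn_id.sub continuousOn_const).inv₀ fun _ hw => sub_ne_zero.2 (sph_ne' hz hw)

theorem Un.wind (hf : Un f) (hz : ‖z‖ < ρ) (h1 : ρ < 1) :
    circleAverage (fun w => w * deriv f w / (f w - f z)) 0 ρ = 1 := by
  have h0 : 0 < ρ := (norm_nonneg z).trans_lt hz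
  have hz1 : z ∈ ball (0 : ℂ) 1 := by simpa using hz.trans h1
  have hQ := hf.an.ds hz1
  have hA : An fun w => w * deriv (dslope f z) w / dslope f z w :=
    (differentiableOn_id.mul hQ.der).div hQ fun _ hw => hf.Q_ne hz1 hw
  have h2 := hA.mean h0 h1
  have h3 := cauchy' (g := fun _ => (1 : ℂ)) h0 (differentiableOn_const _) hz
  have h4 : Co (fun w => w * (w - z)⁻¹ * 1) ρ :=
    (continuousOn_id.mul (co_inv hz)).mul continuousOn_const
  have h5 := circleAverage_fun_add (h4.circleIntegrable h0.le) ((hA.cs h1).circleIntegrable h0.le)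
  rw [h2, h3, zero_mul, zero_div, add_zero] at h5
  rw [← h5]
  refine circleAverage_congr_sphere fun w hw => ?_
  have hw' := sph_abs h0 hw
  have hw1 := sph_sub h1 hw'
  have e1 : (fun w => (w - z) * dslope f z w) = fun w => f w - f z :=
    funext fun w => sub_smul_dslope f z w
  have d1 : HasDerivAt (fun w => (w - z) * dslope f z w)
      (1 * dslope f z w + (w - z) * deriv (dslope f z) w) w :=
    ((hasDerivAt_id w).sub_const z).mul (hQ.at hw1).hasDerivAt
  rw [e1] at d1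
  have d2 := d1.unique ((hf.an.at hw1).hasDerivAt.sub_const (f z))
  have n1 := sub_ne_zero.2 (sph_ne' hz hw')
  have n2 := hf.Q_ne hz1 hw1
  rw [← d2, ← congrFun e1 w]
  field_simp

theorem Un.area_pos (hf : Un f) (hz : ‖z‖ < ρ) (h1 : ρ < 1) :
    0 ≤ circleAverage (fun w => (conj (f w - f z) * (w * deriv f w)).re /
      normSq (f w - f z) ^ 2) 0 ρ := by
  have h0 : 0 < ρ := (norm_nonneg z).trans_lt hz
  have hz1 : z ∈ ball (0 : ℂ) 1 := by simpa using hz.trans h1
  set X : ℂ → ℝ := fun w => (conj (f w - f z) * (w * deriv f w)).re with hX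
  set N : ℂ → ℝ := fun w => normSq (f w - f z) with hN
  have cF : Co (fun w => f w - f z) ρ := (hf.an.cs h1).sub continuousOn_const
  have cX : Co X ρ := continuous_re.comp_continuousOn
    ((continuous_conj.comp_continuousOn cF).mul (continuousOn_id.mul (hf.an.der.cs h1)))
  have cN : Co N ρ := continuous_normSq.comp_continuousOn cF
  have nF : ∀ w ∈ sphere (0 : ℂ) ρ, f w - f z ≠ 0 := fun w hw =>
    hf.sub_ne hz1 (sph_sub h1 hw) (sph_ne' hz hw)
  have pN : ∀ w ∈ sphere (0 : ℂ) ρ, 0 < N w := fun w hw => normSq_pos.2 (nF w hw)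
  have a1 : circleAverage (fun w => X w / N w) 0 ρ = 1 := by
    have c1 : Co (fun w => w * deriv f w / (f w - f z)) ρ :=
      (continuousOn_id.mul (hf.an.der.cs h1)).div cF nF
    have := av_re h0 c1
    rw [hf.wind hz h1, one_re] at this
    rw [← this]
    refine circleAverage_congr_sphere fun w hw => ?_
    simp only [hX, hN]
    rw [div_re, mul_re (conj _), conj_re, conj_im]
    ring
  have i1 : CircleIntegrable (fun w => X w / N w) 0 ρ :=
    (cX.div cN fun w hw => (pN w hw).ne').circleIntegrable h0.le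
  have i2 : CircleIntegrable (fun w => X w / N w ^ 2) 0 ρ :=
    (cX.div (cN.pow 2) fun w hw => (pow_pos (pN w hw) 2).ne').circleIntegrable h0.le
  have i3 : CircleIntegrable (fun w => |X w| / N w ^ 3) 0 ρ :=
    (cX.abs.div (cN.pow 3) fun w hw => (pow_pos (pN w hw) 3).ne').circleIntegrable h0.le
  have key : ∀ δ : ℝ, 0 < δ → 0 ≤ circleAverage (fun w => X w / N w ^ 2) 0 ρ +
      δ * circleAverage (fun w => |X w| / N w ^ 3) 0 ρ := by
    intro δ hδ
    have i4 : CircleIntegrable (fun w => X w / (N w + δ)) 0 ρ :=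
      (cX.div (cN.add continuousOn_const) fun w hw =>
        (add_pos (pN w hw) hδ).ne').circleIntegrable h0.le
    have hF : An fun w => f w - f z := hf.an.sub_const _
    have a2 := area_reg hF (fun a ha b hb e => hf.inj ha hb (sub_left_injective e)) hδ h0 h1
    simp only [deriv_sub_const] at a2
    have i5 : CircleIntegrable (fun w => δ • (|X w| / N w ^ 3)) 0 ρ := i3.smul δ
    have i6 : CircleIntegrable (fun w => δ • (X w / N w ^ 2 + δ • (|X w| / N w ^ 3))) 0 ρ :=
      (i2.add i5).smul δ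
    have a3 : circleAverage (fun w => X w / N w - X w / (N w + δ)) 0 ρ ≤
        circleAverage (fun w => δ • (X w / N w ^ 2 + δ • (|X w| / N w ^ 3))) 0 ρ := by
      refine circleAverage_mono (i1.sub i4) i6 fun w hw => ?_
      have p := pN w (sph_abs h0 hw)
      have l := neg_abs_le (X w)
      have l0 := abs_nonneg (X w)
      simp only [smul_eq_mul]
      rw [← sub_nonneg]
      have e : δ * (X w / N w ^ 2 + δ * (|X w| / N w ^ 3)) - (X w / N w - X w / (N w + δ)) =
          δ ^ 2 * (N w * (X w + |X w|) + δ * |X w|) / (N w ^ 3 * (N w + δ)) := by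
        field_simp
        ring
      rw [e]
      have : 0 ≤ X w + |X w| := by linarith
      positivity
    rw [circleAverage_fun_sub i1 i4, a1, circleAverage_fun_smul,
      circleAverage_fun_add i2 i5, circleAverage_fun_smul, smul_eq_mul,
      smul_eq_mul] at a3
    exact nonneg_of_mul_nonneg_right (by linarith) hδ
  refine le_of_forall_pos_le_add fun ε hε => ?_
  set C := circleAverage (fun w => |X w| / N w ^ 3) 0 ρ
  have h2 := key (ε / (|C| + 1)) (by positivity)
  have h3 : ε / (|C| + 1) * C ≤ ε := by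
    rw [div_mul_eq_mul_div, div_le_iff₀ (by positivity)]
    nlinarith [le_abs_self C]
  linarith

theorem conj_sph (h0 : 0 < r) (hw : w ∈ sphere (0 : ℂ) r) : conj w = (r : ℂ) ^ 2 / w := by
  have h1 := sph_ne h0 hw
  have h2 : ‖w‖ = r := by simpa using hw
  rw [eq_div_iff h1, mul_comm, mul_conj, normSq_eq_norm_sq, h2]
  push_cast
  rfl

theorem den_ne (hz : ‖z‖ < r) (hw : w ∈ closedBall (0 : ℂ) r) :
    (r : ℂ) ^ 2 - conj z * w ≠ 0 := by
  have h2 : ‖w‖ ≤ r := by simpa using hw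
  have h0 : 0 < r := (norm_nonneg z).trans_lt hz
  intro e
  have h3 := congrArg norm (sub_eq_zero.1 e)
  rw [norm_mul, norm_pow, Complex.norm_real, Real.norm_eq_abs, sq_abs, norm_conj] at h3
  nlinarith [norm_nonneg z, norm_nonneg w]

theorem conj_inv (hz : ‖z‖ < r) (hw : w ∈ sphere (0 : ℂ) r) :
    conj ((w - z)⁻¹) = w * ((r : ℂ) ^ 2 - conj z * w)⁻¹ := by
  have h0 : 0 < r := (norm_nonneg z).trans_lt hz
  have h1 := sph_ne h0 hw
  have h2 := den_ne hz (sphere_subset_closedBall hw)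
  have h3 : (r : ℂ) ^ 2 / w - conj z = ((r : ℂ) ^ 2 - conj z * w) / w := by field_simp
  rw [map_inv₀, map_sub, conj_sph h0 hw, h3, inv_div, div_eq_mul_inv]

theorem den_diff (hz : ‖z‖ < r) :
    DifferentiableOn ℂ (fun w : ℂ => ((r : ℂ) ^ 2 - conj z * w)⁻¹) (closedBall 0 r) :=
  DifferentiableOn.inv (by fun_prop) fun _ hw => den_ne hz hw

theorem Un.area (hf : Un f) (hz : ‖z‖ < ρ) (h1 : ρ < 1) (N : ℕ) :
    ∑ s ∈ Finset.range N, s * ‖co (HH f z) s‖ ^ 2 * (ρ ^ 2) ^ s ≤
      ‖uu f z‖ ^ 2 * (ρ ^ 2 / (ρ ^ 2 - ‖z‖ ^ 2) ^ 2) := by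
  have h0 : 0 < ρ := (norm_nonneg z).trans_lt hz
  have hz1 : z ∈ ball (0 : ℂ) 1 := by simpa using hz.trans h1
  have hH := hf.H_an hz1
  refine (sum_le_hasSum _ (fun n _ => by positivity) (hH.dir h0 h1)).trans ?_
  have hp := hf.area_pos hz h1
  set H := HH f z with hHd
  set u := uu f z with hu
  set d : ℂ → ℂ := fun w => ((ρ : ℂ) ^ 2 - conj z * w)⁻¹ with hd
  have dd : DifferentiableOn ℂ d (closedBall 0 ρ) := den_diff hz
  have dH : DifferentiableOn ℂ H (closedBall 0 ρ) := hH.mono (closedBall_subset_ball h1)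
  have dH' : DifferentiableOn ℂ (deriv H) (closedBall 0 ρ) :=
    hH.der.mono (closedBall_subset_ball h1)
  have d1 : DifferentiableOn ℂ (fun w => conj u * (H w * (w * (ρ ^ 2 * d w ^ 2))) -
      conj u * (w * d w * (w * deriv H w))) (closedBall 0 ρ) := by fun_prop
  have d2 : DifferentiableOn ℂ (fun w => u * conj u * (ρ ^ 2 * d w ^ 2)) (closedBall 0 ρ) := by
    fun_prop
  have c1 := d1.continuousOn.mono sphere_subset_closedBall
  have c2 : Co (fun w => w * (w - z)⁻¹ * (u * conj u * (ρ ^ 2 * d w ^ 2))) ρ :=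
    (continuousOn_id.mul (co_inv hz)).mul (d2.continuousOn.mono sphere_subset_closedBall)
  have a1 := circleAverage_fun_add (c1.circleIntegrable h0.le) (c2.circleIntegrable h0.le)
  rw [mean' h0 d1, cauchy' h0 d2 hz] at a1
  have a2 := av_re h0 (c1.add c2)
  have c3 : Co (fun w => (conj (H w) * (w * deriv H w)).re) ρ := continuous_re.comp_continuousOn
    ((continuous_conj.comp_continuousOn (hH.cs h1)).mul (continuousOn_id.mul (hH.der.cs h1)))
  have a3 := circleAverage_fun_sub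
    ((continuous_re.comp_continuousOn (c1.add c2)).circleIntegrable h0.le)
    (c3.circleIntegrable h0.le)
  have a4 : (u * conj u * (ρ ^ 2 * d z ^ 2)).re = ‖u‖ ^ 2 * (ρ ^ 2 / (ρ ^ 2 - ‖z‖ ^ 2) ^ 2) := by
    have e : u * conj u * (ρ ^ 2 * d z ^ 2) =
        ((‖u‖ ^ 2 * (ρ ^ 2 / (ρ ^ 2 - ‖z‖ ^ 2) ^ 2) : ℝ) : ℂ) := by
      simp only [hd]
      rw [mul_conj, mul_comm (conj z), mul_conj, normSq_eq_norm_sq, normSq_eq_norm_sq]
      push_cast
      rw [inv_pow, div_eq_mul_inv]
    rw [e, ofReal_re]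
  have a5 : circleAverage (fun w => (conj (f w - f z) * (w * deriv f w)).re /
      normSq (f w - f z) ^ 2) 0 ρ = circleAverage (fun w =>
        (conj u * (H w * (w * (ρ ^ 2 * d w ^ 2))) - conj u * (w * d w * (w * deriv H w)) +
          w * (w - z)⁻¹ * (u * conj u * (ρ ^ 2 * d w ^ 2))).re -
        (conj (H w) * (w * deriv H w)).re) 0 ρ := by
    refine circleAverage_congr_sphere fun w hw => ?_
    have hw' := sph_abs h0 hw
    have hw1 := sph_sub h1 hw'
    have hn := sph_ne' hz hw'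
    have nF := hf.sub_ne hz1 hw1 hn
    have e1 := hf.G_eq hz1 hw1 hn
    have e2 := hf.G_der hz1 hw1 hn
    have e3 : conj ((w - z)⁻¹) = w * d w := conj_inv hz hw'
    have e4 : conj (w * ((w - z)⁻¹) ^ 2) = w * (ρ ^ 2 * d w ^ 2) := by
      have := sph_ne h0 hw'
      rw [map_mul, map_pow, e3, conj_sph h0 hw']
      field_simp
    have e5 : (conj (f w - f z) * (w * deriv f w)).re / normSq (f w - f z) ^ 2 =
        (-(conj ((f w - f z)⁻¹) * (w * (-deriv f w / (f w - f z) ^ 2)))).re := by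
      have n2 : conj (f w - f z) ≠ 0 := (map_ne_zero _).2 nF
      rw [← div_ofReal_re, ofReal_pow, ← mul_conj, map_inv₀]
      congr 1
      field_simp
    have e6 : w * (w - z)⁻¹ * (u * conj u * (ρ ^ 2 * d w ^ 2)) =
        (w - z)⁻¹ * (u * conj u) * (w * (ρ ^ 2 * d w ^ 2)) := by ring
    have e7 : w * (deriv H w - u * (w - z)⁻¹ ^ 2) = w * deriv H w - u * (w * (w - z)⁻¹ ^ 2) := by
      ring
    rw [e5, e1, e2, ← hHd, ← hu, e6, e7, ← e4, ← e3]
    generalize w * (w - z)⁻¹ ^ 2 = A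
    generalize w * deriv H w = B
    generalize (w - z)⁻¹ = E
    simp only [neg_re, mul_re, mul_im, add_re, add_im, sub_re, sub_im, conj_re, conj_im]
    ring
  rw [a5] at hp
  simp only [Function.comp_def, Pi.add_def] at a2 a3
  rw [a3, a2, a1] at hp
  simp only [mul_zero, zero_mul, sub_zero, zero_add] at hp
  rw [a4] at hp
  linarith

end Vale.Agent.P142
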