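import Mathlib

/-! Circle averages, Taylor coefficients, Parseval. -/

open Set Filter Topology Metric Complex Real MeasureTheory
open scoped ComplexConjugate

namespace Vale.Agent.P142

/-- holomorphic in the unit disc -/
abbrev An (g : ℂ → ℂ) : Prop := DifferentiableOn ℂ g (ball 0 1)

/-- continuous on a circle -/
abbrev Co {E : Type} [TopologicalSpace E] (g : ℂ → E) (r : ℝ) : Prop := ContinuousOn g (sphere 0 r)

/-- Laurent coefficient on a circle -/
noncomputable def fc (g : ℂ → ℂ) (r : ℝ) (n : ℤ) : ℂ :=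
  circleAverage (fun w => g w * w ^ (-n)) 0 r

/-- Taylor coefficient -/
noncomputable def co (g : ℂ → ℂ) (n : ℕ) : ℂ := iteratedDeriv n g 0 / n.factorial

variable {g h : ℂ → ℂ} {r ρ : ℝ}

theorem sph_sub (h1 : r < 1) : sphere (0 : ℂ) r ⊆ ball 0 1 :=
  sphere_subset_closedBall.trans (closedBall_subset_ball h1)

theorem sph_ne (h0 : 0 < r) {w : ℂ} (hw : w ∈ sphere (0 : ℂ) r) : w ≠ 0 :=
  ne_of_mem_sphere hw h0.ne'

theorem sph_abs (h0 : 0 < r) {w : ℂ} (hw : w ∈ sphere (0 : ℂ) |r|) : w ∈ sphere (0 : ℂ) r := by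
  rwa [abs_of_pos h0] at hw

theorem cm_mem (h0 : 0 < r) (θ : ℝ) : circleMap 0 r θ ∈ sphere (0 : ℂ) r :=
  circleMap_mem_sphere 0 h0.le θ

theorem An.cs (hg : An g) (h1 : r < 1) : Co g r := hg.continuousOn.mono (sph_sub h1)

theorem An.der (hg : An g) : An (deriv g) := hg.deriv isOpen_ball

theorem An.at (hg : An g) {w : ℂ} (hw : w ∈ ball (0 : ℂ) 1) : DifferentiableAt ℂ g w :=
  hg.differentiableAt (isOpen_ball.mem_nhds hw)

theorem Co.zp (hg : Co g r) (h0 : 0 < r) (n : ℤ) : Co (fun w => g w * w ^ n) r :=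
  hg.mul (continuousOn_id.zpow₀ n fun _ hw => Or.inl (sph_ne h0 hw))

theorem mean' (h0 : 0 < r) (hg : DifferentiableOn ℂ g (closedBall 0 r)) :
    circleAverage g 0 r = g 0 := by
  refine DiffContOnCl.circleAverage ?_
  rw [abs_of_pos h0]
  exact (hg.mono closure_ball_subset_closedBall).diffContOnCl

theorem An.mean (hg : An g) (h0 : 0 < r) (h1 : r < 1) : circleAverage g 0 r = g 0 :=
  mean' h0 (hg.mono (closedBall_subset_ball h1))

theorem An.fc_nat (hg : An g) (h0 : 0 < r) (h1 : r < 1) (n : ℕ) : fc g r n = co g n := by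
  have h2 := DifferentiableOn.circleIntegral_one_div_sub_center_pow_smul h0 n
    (hg.mono (closedBall_subset_ball h1))
  have h3 : (∮ z in C(0, r), (z - 0)⁻¹ • (g z * z ^ (-(n : ℤ)))) =
      ∮ z in C(0, r), (1 / (z - 0) ^ (n + 1)) • g z := by
    refine circleIntegral.integral_congr h0.le fun z hz => ?_
    have := sph_ne h0 hz
    simp only [sub_zero, smul_eq_mul, zpow_neg, zpow_natCast, pow_succ]
    field_simp
  rw [fc, circleAverage_eq_circleIntegral h0.ne', h3, h2, co, smul_eq_mul, smul_eq_mul]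
  have := two_pi_I_ne_zero
  field_simp

theorem An.fc_neg (hg : An g) (h0 : 0 < r) (h1 : r < 1) (k : ℕ) :
    fc g r (-(k + 1 : ℕ)) = 0 := by
  have h2 : An fun w => g w * w ^ (k + 1) := hg.mul (differentiableOn_id.pow _)
  have h3 := h2.mean h0 h1
  simp only [fc, neg_neg, zpow_natCast]
  rw [h3]
  simp

theorem fc_congr (h0 : 0 < r) (e : EqOn g h (sphere 0 r)) (n : ℤ) : fc g r n = fc h r n :=
  circleAverage_congr_sphere fun w hw => by
    simp only [e (sph_abs h0 hw)]

theorem fc_add (h0 : 0 < r) (hg : Co g r) (hh : Co h r) (n : ℤ) :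
    fc (fun w => g w + h w) r n = fc g r n + fc h r n := by
  simp only [fc, add_mul]
  exact circleAverage_fun_add ((hg.zp h0 _).circleIntegrable h0.le)
    ((hh.zp h0 _).circleIntegrable h0.le)

theorem fc_sub (h0 : 0 < r) (hg : Co g r) (hh : Co h r) (n : ℤ) :
    fc (fun w => g w - h w) r n = fc g r n - fc h r n := by
  simp only [fc, sub_mul]
  exact circleAverage_fun_sub ((hg.zp h0 _).circleIntegrable h0.le)
    ((hh.zp h0 _).circleIntegrable h0.le)

theorem fc_mul (c : ℂ) (n : ℤ) : fc (fun w => c * g w) r n = c * fc g r n := by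
  simp only [fc, mul_assoc]
  exact circleAverage_fun_smul (a := c) (f := fun w => g w * w ^ (-n))

theorem fc_shift (h0 : 0 < r) (n : ℤ) : fc (fun w => w * g w) r (n + 1) = fc g r n :=
  circleAverage_congr_sphere fun w hw => by
    have := sph_ne h0 (sph_abs h0 hw)
    simp only [neg_add, zpow_add₀ this, zpow_neg, zpow_one]
    field_simp

theorem pars (h0 : 0 < r) (hg : Co g r) :
    HasSum (fun n : ℤ => ‖fc g r n‖ ^ 2 * (r ^ n) ^ 2)
      (circleAverage (fun w => ‖g w‖ ^ 2) 0 r) := by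
  have hc : Continuous fun θ => g (circleMap 0 r θ) :=
    hg.comp_continuous (continuous_circleMap 0 r) (cm_mem h0)
  have hL : MemLp (fun θ => g (circleMap 0 r θ)) 2 (volume.restrict (Ioc 0 (2 * π))) := by
    obtain ⟨C, hC⟩ := (isCompact_sphere (0 : ℂ) r).exists_bound_of_continuousOn hg
    exact MemLp.of_bound hc.aestronglyMeasurable C
      (Eventually.of_forall fun θ => hC _ (cm_mem h0 θ))
  have h2 := hasSum_sq_fourierCoeffOn two_pi_pos hL
  have h3 : ∀ n : ℤ, fourierCoeffOn two_pi_pos (fun θ => g (circleMap 0 r θ)) n =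
      fc g r n * (r ^ n : ℝ) := by
    intro n
    rw [fourierCoeffOn_eq_integral, fc, circleAverage_def, smul_mul_assoc,
      ← intervalIntegral.integral_mul_const, sub_zero, one_div]
    congr 1
    refine intervalIntegral.integral_congr fun θ _ => ?_
    have h4 : (r : ℂ) ≠ 0 := ofReal_ne_zero.2 h0.ne'
    have h5 : (π : ℂ) ≠ 0 := ofReal_ne_zero.2 pi_ne_zero
    have h6 : circleMap 0 r θ ^ (-n) * ((r ^ n : ℝ) : ℂ) =
        cexp (2 * π * I * (-n : ℤ) * θ / (2 * π : ℝ)) := by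
      rw [circleMap_zero, mul_zpow, ← Complex.exp_int_mul]
      push_cast
      rw [mul_right_comm, ← zpow_add₀ h4, neg_add_cancel, zpow_zero, one_mul]
      congr 1
      field_simp
    simp only [fourier_coe_apply, smul_eq_mul]
    rw [mul_assoc (g _), h6, mul_comm]
  simp only [h3, norm_mul, mul_pow, Complex.norm_real, Real.norm_eq_abs, sq_abs, sub_zero] at h2
  exact h2

theorem bessel (h0 : 0 < r) (hg : Co g r) (N : ℕ) :
    ∑ j ∈ Finset.range N, ‖fc g r j‖ ^ 2 * (r ^ 2) ^ j ≤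
      circleAverage (fun w => ‖g w‖ ^ 2) 0 r := by
  have h1 := sum_le_hasSum ((Finset.range N).map Nat.castEmbedding)
    (fun n _ => by positivity) (pars h0 hg)
  rw [Finset.sum_map] at h1
  refine le_trans (le_of_eq (Finset.sum_congr rfl fun j _ => ?_)) h1
  simp only [Nat.castEmbedding_apply, zpow_natCast]
  ring

theorem An.pars (hg : An g) (h0 : 0 < r) (h1 : r < 1) :
    HasSum (fun n : ℕ => ‖co g n‖ ^ 2 * (r ^ 2) ^ n) (circleAverage (fun w => ‖g w‖ ^ 2) 0 r) := by
  have h2 := P142.pars h0 (hg.cs h1)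
  rw [← Nat.cast_injective.hasSum_iff] at h2
  · convert h2 using 2 with n
    simp only [Function.comp_apply, zpow_natCast, hg.fc_nat h0 h1]
    ring
  · intro n hn
    rcases n with n | n
    · exact absurd ⟨n, rfl⟩ hn
    · have h3 := hg.fc_neg h0 h1 n
      rw [Int.negSucc_eq, ← Nat.cast_succ, h3]
      simp

theorem An.fc_der (hg : An g) (h0 : 0 < r) (h1 : r < 1) (n : ℤ) :
    fc (fun w => w * deriv g w) r n = n * fc g r n := by
  have hd : Co (fun w => w * deriv g w) r := continuousOn_id.mul (hg.der.cs h1)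
  have hn : Co (fun w => (n : ℂ) * g w) r := continuousOn_const.mul (hg.cs h1)
  rw [← fc_mul, ← sub_eq_zero, ← fc_sub h0 hd hn, fc, circleAverage_def]
  have h2 : ∀ θ : ℝ, HasDerivAt (fun θ => -I * (g (circleMap 0 r θ) * circleMap 0 r θ ^ (-n)))
      ((circleMap 0 r θ * deriv g (circleMap 0 r θ) - n * g (circleMap 0 r θ)) *
        circleMap 0 r θ ^ (-n)) θ := by
    intro θ
    have h3 := sph_ne h0 (cm_mem h0 θ)
    have h4 := (((hg.at (sph_sub h1 (cm_mem h0 θ))).hasDerivAt.mul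
      (hasDerivAt_zpow (-n) _ (Or.inl h3))).comp θ (hasDerivAt_circleMap 0 r θ)).const_mul (-I)
    refine h4.congr_deriv ?_
    rw [zpow_sub_one₀ h3]
    push_cast
    field_simp
    rw [I_sq]
    ring
  rw [intervalIntegral.integral_eq_sub_of_hasDerivAt (fun θ _ => h2 θ)
    ((Co.zp (hd.sub hn) h0 (-n)).circleIntegrable h0.le)]
  have h5 := periodic_circleMap 0 r 0
  rw [zero_add] at h5
  rw [h5, sub_self, smul_zero]

theorem co_congr (hg : An g) (hh : An h) (h0 : 0 < r) (h1 : r < 1) (e : EqOn g h (sphere 0 r))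
    (n : ℕ) : co g n = co h n := by
  rw [← hg.fc_nat h0 h1, ← hh.fc_nat h0 h1, fc_congr h0 e]

theorem An.dir (hg : An g) (h0 : 0 < r) (h1 : r < 1) :
    HasSum (fun n : ℕ => n * ‖co g n‖ ^ 2 * (r ^ 2) ^ n)
      (circleAverage (fun w => (conj (g w) * (w * deriv g w)).re) 0 r) := by
  have hd : An fun w => w * deriv g w := differentiableOn_id.mul hg.der
  have ha : An fun w => g w + w * deriv g w := hg.add hd
  have hs : An fun w => g w - w * deriv g w := hg.sub hd
  have ca : ∀ n : ℕ, co (fun w => g w + w * deriv g w) n = ((1 + n : ℝ) : ℂ) * co g n := by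
    intro n
    rw [← ha.fc_nat h0 h1, fc_add h0 (hg.cs h1) (hd.cs h1), hg.fc_der h0 h1, hg.fc_nat h0 h1]
    push_cast
    ring
  have cs : ∀ n : ℕ, co (fun w => g w - w * deriv g w) n = ((1 - n : ℝ) : ℂ) * co g n := by
    intro n
    rw [← hs.fc_nat h0 h1, fc_sub h0 (hg.cs h1) (hd.cs h1), hg.fc_der h0 h1, hg.fc_nat h0 h1]
    push_cast
    ring
  have h2 := ((ha.pars h0 h1).sub (hs.pars h0 h1)).mul_left (1 / 4)
  have i1 : CircleIntegrable (fun w => ‖g w + w * deriv g w‖ ^ 2) 0 r :=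
    ((ha.cs h1).norm.pow 2).circleIntegrable h0.le
  have i2 : CircleIntegrable (fun w => ‖g w - w * deriv g w‖ ^ 2) 0 r :=
    ((hs.cs h1).norm.pow 2).circleIntegrable h0.le
  rw [← circleAverage_fun_sub i1 i2, ← smul_eq_mul (1 / 4 : ℝ), ← circleAverage_fun_smul] at h2
  have e1 : (fun w => (conj (g w) * (w * deriv g w)).re) = fun z =>
      (1 / 4 : ℝ) • (‖g z + z * deriv g z‖ ^ 2 - ‖g z - z * deriv g z‖ ^ 2) := by
    funext w
    simp only [Complex.sq_norm, normSq_apply, smul_eq_mul, mul_re, mul_im, add_re, add_im, sub_re,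
      sub_im, conj_re, conj_im]
    ring
  rw [e1]
  refine h2.congr_fun fun n => ?_
  simp only [ca, cs, norm_mul, mul_pow, Complex.norm_real, Real.norm_eq_abs, sq_abs]
  ring

theorem av_swap {Φ : ℂ → ℂ → ℂ} (h0 : 0 < r) (h0' : 0 < ρ)
    (hΦ : ContinuousOn Φ.uncurry (sphere 0 r ×ˢ sphere 0 ρ)) :
    circleAverage (fun z => circleAverage (Φ z) 0 ρ) 0 r =
      circleAverage (fun w => circleAverage (fun z => Φ z w) 0 r) 0 ρ := by
  have hc : Continuous fun p : ℝ × ℝ => Φ (circleMap 0 r p.1) (circleMap 0 ρ p.2) :=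
    hΦ.comp_continuous (f := fun p : ℝ × ℝ => (circleMap 0 r p.1, circleMap 0 ρ p.2))
      (by fun_prop) fun p => ⟨cm_mem h0 _, cm_mem h0' _⟩
  simp only [circleAverage_def, intervalIntegral.integral_smul]
  rw [intervalIntegral_intervalIntegral_swap]
  exact (hc.continuousOn.integrableOn_compact (isCompact_uIcc.prod isCompact_uIcc)).mono_set
    (prod_mono uIoc_subset_uIcc uIoc_subset_uIcc)

theorem av_cont {Φ : ℂ → ℂ → ℂ} (h0' : 0 < ρ)
    (hΦ : ContinuousOn Φ.uncurry (sphere 0 r ×ˢ sphere 0 ρ)) :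
    Co (fun z => circleAverage (Φ z) 0 ρ) r := by
  rw [Co, continuousOn_iff_continuous_domRestrict]
  refine (intervalIntegral.continuous_parametric_intervalIntegral_of_continuous'
    (f := fun (z : sphere (0 : ℂ) r) θ => Φ z (circleMap 0 ρ θ)) ?_ _ _).const_smul _
  exact hΦ.comp_continuous (f := fun p : sphere (0 : ℂ) r × ℝ => ((p.1 : ℂ), circleMap 0 ρ p.2))
    (by fun_prop) fun p => ⟨p.1.2, cm_mem h0' _⟩

theorem fc_cont {Φ : ℂ → ℂ → ℂ} (h0' : 0 < ρ)
    (hΦ : ContinuousOn Φ.uncurry (sphere 0 r ×ˢ sphere 0 ρ)) (s : ℤ) :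
    Co (fun z => fc (Φ z) ρ s) r :=
  av_cont (Φ := fun z w => Φ z w * w ^ (-s)) h0'
    (hΦ.mul (continuousOn_snd.zpow₀ _ fun _ hp => Or.inl (sph_ne h0' hp.2)))

theorem fc_swap {Φ : ℂ → ℂ → ℂ} (h0 : 0 < r) (h0' : 0 < ρ)
    (hΦ : ContinuousOn Φ.uncurry (sphere 0 r ×ˢ sphere 0 ρ)) (j s : ℤ) :
    fc (fun z => fc (Φ z) ρ s) r j = fc (fun w => fc (fun z => Φ z w) r j) ρ s := by
  have h1 := av_swap (Φ := fun z w => Φ z w * w ^ (-s) * z ^ (-j)) h0 h0'
    ((hΦ.mul (continuousOn_snd.zpow₀ _ fun _ hp => Or.inl (sph_ne h0' hp.2))).mul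
      (continuousOn_fst.zpow₀ _ fun _ hp => Or.inl (sph_ne h0 hp.1)))
  have h2 : ∀ (G : ℂ → ℂ) (c : ℂ) (t : ℝ),
      circleAverage G 0 t * c = circleAverage (fun w => G w * c) 0 t := by
    intro G c t
    rw [mul_comm, ← smul_eq_mul, ← circleAverage_fun_smul]
    simp only [smul_eq_mul, mul_comm]
  simp only [fc, h2]
  rw [h1]
  simp only [mul_right_comm]

end Vale.Agent.P142
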