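import Vale.Agent.P142.Circ

/-! Green's formula in polar coordinates and the area bound. -/

open Set Filter Topology Metric Complex Real MeasureTheory
open scoped ComplexConjugate

namespace Vale.Agent.P142

variable {F : ℂ → ℂ} {δ ρ : ℝ}

/-- `e^{iθ}` -/
noncomputable def ex (θ : ℝ) : ℂ := cexp (θ * I)

theorem ex_norm (θ : ℝ) : ‖ex θ‖ = 1 := Complex.norm_exp_ofReal_mul_I θ

theorem ex_conj (θ : ℝ) : conj (ex θ) * ex θ = 1 := by
  rw [conj_mul', ex_norm]
  simp

theorem ex_der (θ : ℝ) : HasDerivAt ex (I * ex θ) θ := by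
  have h := ((Complex.ofRealCLM.hasDerivAt (x := θ)).mul_const I).cexp
  refine h.congr_deriv ?_
  simp [ex, mul_comm]

theorem ex_cont : Continuous ex := by
  unfold ex
  fun_prop

theorem ex_mem {r : ℝ} (h : |r| < 1) (θ : ℝ) : r * ex θ ∈ ball (0 : ℂ) 1 := by
  simpa [ex_norm] using h

/-- numerator -/
noncomputable def gN (F : ℂ → ℂ) (r θ : ℝ) : ℂ :=
  conj (F (r * ex θ)) * (ex θ * deriv F (r * ex θ))

/-- second order term -/
noncomputable def gM (F : ℂ → ℂ) (r θ : ℝ) : ℂ :=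
  conj (F (r * ex θ)) * (ex θ * ex θ * deriv (deriv F) (r * ex θ))

/-- denominator -/
noncomputable def gD (F : ℂ → ℂ) (δ r θ : ℝ) : ℝ := normSq (F (r * ex θ)) + δ

/-- angular derivative -/
noncomputable def gB (F : ℂ → ℂ) (δ r θ : ℝ) : ℝ :=
  (-(r * normSq (deriv F (r * ex θ))) + (gN F r θ).re + r * (gM F r θ).re) / gD F δ r θ +
    2 * r * (gN F r θ).im ^ 2 / gD F δ r θ ^ 2

/-- Jacobian term -/
noncomputable def gJ (F : ℂ → ℂ) (δ r θ : ℝ) : ℝ :=
  r * (normSq (deriv F (r * ex θ)) * (2 * δ / gD F δ r θ ^ 2))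

theorem gD_pos (hδ : 0 < δ) (r θ : ℝ) : 0 < gD F δ r θ :=
  add_pos_of_nonneg_of_pos (normSq_nonneg _) hδ

theorem der_re {N : ℝ → ℂ} {N' : ℂ} {t : ℝ} (h : HasDerivAt N N' t) :
    HasDerivAt (fun s => (N s).re) N'.re t :=
  Complex.reCLM.hasFDerivAt.comp_hasDerivAt t h

theorem der_im {N : ℝ → ℂ} {N' : ℂ} {t : ℝ} (h : HasDerivAt N N' t) :
    HasDerivAt (fun s => (N s).im) N'.im t :=
  Complex.imCLM.hasFDerivAt.comp_hasDerivAt t h

theorem der_sq {N : ℝ → ℂ} {N' : ℂ} {t : ℝ} (h : HasDerivAt N N' t) (δ : ℝ) :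
    HasDerivAt (fun s => normSq (N s) + δ) (2 * (conj (N t) * N').re) t := by
  have h1 := (((der_re h).mul (der_re h)).add ((der_im h).mul (der_im h))).add_const δ
  refine HasDerivAt.congr_deriv (h1.congr_of_eventuallyEq (Eventually.of_forall fun s => ?_)) ?_
  · simp [normSq_apply]
  · simp only [mul_re, conj_re, conj_im]
    ring

theorem gN_sq (r θ : ℝ) : (gN F r θ).re ^ 2 + (gN F r θ).im ^ 2 =
    normSq (F (r * ex θ)) * normSq (deriv F (r * ex θ)) := by
  have h : normSq (gN F r θ) = normSq (F (r * ex θ)) * normSq (deriv F (r * ex θ)) := by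
    rw [gN, map_mul, map_mul, normSq_conj, normSq_eq_norm_sq (ex θ), ex_norm]
    ring
  rw [← h, normSq_apply]
  ring

theorem der_r (hF : An F) (hδ : 0 < δ) {r : ℝ} (hr : |r| < 1) (θ : ℝ) :
    HasDerivAt (fun r => r * (gN F r θ).re / gD F δ r θ) (gB F δ r θ + gJ F δ r θ) r := by
  have hw : HasDerivAt (fun r : ℝ => (r : ℂ) * ex θ) (ex θ) r := by
    simpa using (Complex.ofRealCLM.hasDerivAt (x := r)).mul_const (ex θ)
  have hA := (hF.at (ex_mem hr θ)).hasDerivAt.comp r hw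
  have hB := (hF.der.at (ex_mem hr θ)).hasDerivAt.comp r hw
  have hN : HasDerivAt (fun r => gN F r θ)
      ((normSq (deriv F (r * ex θ)) : ℂ) + gM F r θ) r := by
    refine (hA.star.mul (hB.const_mul (ex θ))).congr_deriv ?_
    simp only [Function.comp_apply, gM, normSq_eq_conj_mul_self, star_def, map_mul]
    linear_combination (conj (deriv F (r * ex θ)) * deriv F (r * ex θ)) * ex_conj θ
  have hD : HasDerivAt (fun r => gD F δ r θ) (2 * (gN F r θ).re) r := by
    refine (der_sq hA δ).congr_deriv ?_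
    simp only [Function.comp_apply, gN, mul_comm (ex θ)]
  have h0 := (gD_pos (F := F) hδ r θ).ne'
  refine (((hasDerivAt_id r).mul (der_re hN)).div hD h0).congr_deriv ?_
  have h1 := gN_sq (F := F) r θ
  have h2 : δ = gD F δ r θ - normSq (F (r * ex θ)) := by
    rw [gD]
    ring
  simp only [gB, gJ, id, add_re, ofReal_re, Pi.mul_apply]
  generalize gD F δ r θ = D at *
  rw [h2]
  field_simp
  linear_combination (-2 * r) * h1

theorem der_t (hF : An F) (hδ : 0 < δ) {r : ℝ} (hr : |r| < 1) (θ : ℝ) :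
    HasDerivAt (fun θ => (gN F r θ).im / gD F δ r θ) (gB F δ r θ) θ := by
  have hw : HasDerivAt (fun θ : ℝ => (r : ℂ) * ex θ) (r * (I * ex θ)) θ :=
    (ex_der θ).const_mul _
  have hA := (hF.at (ex_mem hr θ)).hasDerivAt.comp θ hw
  have hB := (hF.der.at (ex_mem hr θ)).hasDerivAt.comp θ hw
  have hN : HasDerivAt (fun θ => gN F r θ)
      (I * (-(r * normSq (deriv F (r * ex θ)) : ℝ) + gN F r θ + r * gM F r θ)) θ := by
    refine (hA.star.mul ((ex_der θ).mul hB)).congr_deriv ?_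
    simp only [Function.comp_apply, gM, gN, normSq_eq_conj_mul_self, star_def, map_mul,
      conj_ofReal, conj_I, ofReal_mul, Pi.mul_apply]
    linear_combination (-(I * r * conj (deriv F (r * ex θ)) * deriv F (r * ex θ))) * ex_conj θ
  have hD : HasDerivAt (fun θ => gD F δ r θ) (-(2 * r * (gN F r θ).im)) θ := by
    refine (der_sq hA δ).congr_deriv ?_
    simp only [Function.comp_apply, gN, mul_re, mul_im, ofReal_re, ofReal_im, I_re, I_im]
    ring
  have h0 := (gD_pos (F := F) hδ r θ).ne'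
  refine ((der_im hN).div hD h0).congr_deriv ?_
  simp only [gB, I_mul_im, add_re, neg_re, ofReal_re, re_ofReal_mul]
  field_simp
  ring

theorem cont_pol {G : ℂ → ℂ} (hG : An G) (h1 : ρ < 1) (S : Set ℝ) :
    ContinuousOn (fun p : ℝ × ℝ => G (p.1 * ex p.2)) (Icc 0 ρ ×ˢ S) := by
  refine hG.continuousOn.comp (f := fun p : ℝ × ℝ => (p.1 : ℂ) * ex p.2) ?_ fun p hp => ?_
  · exact ((continuous_ofReal.comp continuous_fst).mul (ex_cont.comp continuous_snd)).continuousOn
  · exact ex_mem (by rw [abs_of_nonneg hp.1.1]; exact hp.1.2.trans_lt h1) _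

theorem cont_BJ (hF : An F) (hδ : 0 < δ) (h1 : ρ < 1) (S : Set ℝ) :
    ContinuousOn (fun p : ℝ × ℝ => gB F δ p.1 p.2) (Icc 0 ρ ×ˢ S) ∧
      ContinuousOn (fun p : ℝ × ℝ => gJ F δ p.1 p.2) (Icc 0 ρ ×ˢ S) := by
  have c0 := cont_pol hF h1 S
  have c1 := cont_pol hF.der h1 S
  have c2 := cont_pol hF.der.der h1 S
  have ce : ContinuousOn (fun p : ℝ × ℝ => ex p.2) (Icc 0 ρ ×ˢ S) :=
    (ex_cont.comp continuous_snd).continuousOn
  have cc : ContinuousOn (fun p : ℝ × ℝ => conj (F (p.1 * ex p.2))) (Icc 0 ρ ×ˢ S) :=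
    continuous_conj.comp_continuousOn c0
  have cN : ContinuousOn (fun p : ℝ × ℝ => gN F p.1 p.2) (Icc 0 ρ ×ˢ S) := cc.mul (ce.mul c1)
  have cM : ContinuousOn (fun p : ℝ × ℝ => gM F p.1 p.2) (Icc 0 ρ ×ˢ S) :=
    cc.mul ((ce.mul ce).mul c2)
  have cD : ContinuousOn (fun p : ℝ × ℝ => gD F δ p.1 p.2) (Icc 0 ρ ×ˢ S) :=
    (continuous_normSq.comp_continuousOn c0).add continuousOn_const
  have c3 := continuous_normSq.comp_continuousOn c1
  have h0 : ∀ p : ℝ × ℝ, gD F δ p.1 p.2 ≠ 0 := fun p => (gD_pos hδ _ _).ne'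
  constructor
  · exact ((((continuousOn_fst.mul c3).neg.add (continuous_re.comp_continuousOn cN)).add
      (continuousOn_fst.mul (continuous_re.comp_continuousOn cM))).div cD fun p _ => h0 p).add
      (((continuousOn_const.mul continuousOn_fst).mul
        ((continuous_im.comp_continuousOn cN).pow 2)).div (cD.pow 2)
          fun p _ => pow_ne_zero 2 (h0 p))
  · exact continuousOn_fst.mul
      (c3.mul (continuousOn_const.div (cD.pow 2) fun p _ => pow_ne_zero 2 (h0 p)))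

theorem green (hF : An F) (hδ : 0 < δ) (h0 : 0 < ρ) (h1 : ρ < 1) :
    ∫ θ in -π..π, ρ * (gN F ρ θ).re / gD F δ ρ θ =
      ∫ r in (0 : ℝ)..ρ, ∫ θ in -π..π, gJ F δ r θ := by
  obtain ⟨cB, cJ⟩ := cont_BJ hF hδ h1 univ
  have hr : ∀ r ∈ uIcc 0 ρ, |r| < 1 := fun r hr => by
    rw [uIcc_of_le h0.le] at hr
    rw [abs_of_nonneg hr.1]
    exact hr.2.trans_lt h1
  have h2 : ∀ θ, ρ * (gN F ρ θ).re / gD F δ ρ θ =
      ∫ r in (0 : ℝ)..ρ, (gB F δ r θ + gJ F δ r θ) := by
    intro θ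
    rw [intervalIntegral.integral_eq_sub_of_hasDerivAt fun r h => der_r hF hδ (hr r h) θ]
    · simp
    · refine ContinuousOn.intervalIntegrable ?_
      rw [uIcc_of_le h0.le]
      exact (cB.add cJ).comp (f := fun r : ℝ => (r, θ)) (by fun_prop) fun r h => ⟨h, trivial⟩
  simp only [h2]
  rw [← intervalIntegral_intervalIntegral_swap (F := fun r θ => gB F δ r θ + gJ F δ r θ)]
  · refine intervalIntegral.integral_congr fun r h => ?_
    have h' : r ∈ Icc 0 ρ := by rwa [uIcc_of_le h0.le] at h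
    have iB : IntervalIntegrable (gB F δ r) volume (-π) π :=
      (cB.comp_continuous (f := fun θ : ℝ => (r, θ)) (by fun_prop)
        fun θ => ⟨h', trivial⟩).intervalIntegrable _ _
    have iJ : IntervalIntegrable (gJ F δ r) volume (-π) π :=
      (cJ.comp_continuous (f := fun θ : ℝ => (r, θ)) (by fun_prop)
        fun θ => ⟨h', trivial⟩).intervalIntegrable _ _
    have e : ex π = ex (-π) := by simp [ex, Complex.exp_neg]
    rw [intervalIntegral.integral_add iB iJ,
      intervalIntegral.integral_eq_sub_of_hasDerivAt (fun θ _ => der_t hF hδ (hr r h) θ) iB]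
    simp only [gN, gD, e, sub_self, zero_add]
  · refine (((cB.add cJ).mono (prod_mono le_rfl (subset_univ (uIcc (-π) π)))).integrableOn_compact
      (isCompact_Icc.prod isCompact_uIcc)).mono_set (prod_mono ?_ uIoc_subset_uIcc)
    rw [uIoc_of_le h0.le]
    exact Ioc_subset_Icc_self

theorem pol_eq (p : ℝ × ℝ) : Complex.polarCoord.symm p = p.1 * ex p.2 := by
  rw [Complex.polarCoord_symm_apply, ex, exp_mul_I]
  simp

theorem int_plane (hδ : 0 < δ) : ∫ a : ℂ, 2 * δ / (normSq a + δ) ^ 2 = 2 * π := by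
  rw [← Complex.integral_comp_polarCoord_symm, polarCoord_target]
  have h1 : ∀ p : ℝ × ℝ, p.1 • (2 * δ / (normSq (Complex.polarCoord.symm p) + δ) ^ 2) =
      (fun r : ℝ => 2 * δ * r / (r ^ 2 + δ) ^ 2) p.1 * (fun _ : ℝ => (1 : ℝ)) p.2 := by
    intro p
    rw [normSq_eq_norm_sq, Complex.norm_polarCoord_symm, sq_abs, smul_eq_mul]
    ring
  simp only [h1]
  rw [Measure.volume_eq_prod, setIntegral_prod_mul (fun r : ℝ => 2 * δ * r / (r ^ 2 + δ) ^ 2)
    fun _ : ℝ => (1 : ℝ)]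
  have h2 : ∀ x : ℝ, HasDerivAt (fun r : ℝ => -δ * (r ^ 2 + δ)⁻¹)
      (2 * δ * x / (x ^ 2 + δ) ^ 2) x := by
    intro x
    have h3 : x ^ 2 + δ ≠ 0 := by positivity
    refine ((((hasDerivAt_pow 2 x).add_const δ).inv h3).const_mul (-δ)).congr_deriv ?_
    field_simp
    simp [mul_comm]
  have h3 : Tendsto (fun r : ℝ => -δ * (r ^ 2 + δ)⁻¹) atTop (𝓝 (-δ * 0)) :=
    (tendsto_inv_atTop_zero.comp
      (tendsto_atTop_add_const_right _ δ (tendsto_pow_atTop two_ne_zero))).const_mul _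
  rw [integral_Ioi_of_hasDerivAt_of_nonneg' (fun x _ => h2 x)
    (fun x hx => by have : 0 < x := hx; positivity) h3]
  have h4 := pi_pos
  simp only [integral_const, MeasurableSet.univ, measureReal_restrict_apply, univ_inter,
    smul_eq_mul, mul_one]
  rw [Real.volume_real_Ioo_of_le (by linarith)]
  field_simp
  ring

theorem det_eq (c : ℂ) : |(c • (1 : ℂ →L[ℝ] ℂ)).det| = normSq c := by
  have h : (c • (1 : ℂ →L[ℝ] ℂ)).det = Algebra.norm ℝ c := by
    rw [Algebra.norm_apply, ContinuousLinearMap.det]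
    congr 1
  rw [h, Algebra.norm_complex_apply, abs_of_nonneg (normSq_nonneg _)]

theorem jac_le (hF : An F) (hi : InjOn F (ball 0 1)) (hδ : 0 < δ) (h0 : 0 < ρ) (h1 : ρ < 1) :
    ∫ r in (0 : ℝ)..ρ, ∫ θ in -π..π, gJ F δ r θ ≤ 2 * π := by
  have hs : ball (0 : ℂ) ρ ⊆ ball 0 1 := ball_subset_ball h1.le
  have h2 := integral_image_eq_integral_abs_det_fderiv_smul volume measurableSet_ball
    (fun z (hz : z ∈ ball (0 : ℂ) ρ) =>
      (hF.at (hs hz)).hasDerivAt.complexToReal_fderiv.hasFDerivWithinAt) (hi.mono hs)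
    fun a : ℂ => 2 * δ / (normSq a + δ) ^ 2
  have h3 : Integrable fun a : ℂ => 2 * δ / (normSq a + δ) ^ 2 :=
    Integrable.of_integral_ne_zero (by rw [int_plane hδ]; positivity)
  have h4 := setIntegral_le_integral (s := F '' ball 0 ρ) h3
    (Eventually.of_forall fun a => by positivity)
  rw [int_plane hδ, h2, ← integral_indicator measurableSet_ball,
    ← Complex.integral_comp_polarCoord_symm, polarCoord_target] at h4
  refine le_trans (le_of_eq ?_) h4
  have h5 : ∀ p ∈ Ioi (0 : ℝ) ×ˢ Ioo (-π) π, p.1 • (ball (0 : ℂ) ρ).indicator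
      (fun x => |(deriv F x • (1 : ℂ →L[ℝ] ℂ)).det| • (2 * δ / (normSq (F x) + δ) ^ 2))
        (Complex.polarCoord.symm p) =
      (Iio ρ ×ˢ univ).indicator (fun p : ℝ × ℝ => gJ F δ p.1 p.2) p := by
    intro p hp
    have h6 : Complex.polarCoord.symm p ∈ ball (0 : ℂ) ρ ↔ p ∈ Iio ρ ×ˢ (univ : Set ℝ) := by
      rw [mem_ball_zero_iff, Complex.norm_polarCoord_symm, abs_of_pos hp.1]
      simp
    by_cases h : p ∈ Iio ρ ×ˢ (univ : Set ℝ)
    · rw [indicator_of_mem h, indicator_of_mem (h6.2 h), det_eq, pol_eq]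
      rfl
    · rw [indicator_of_notMem h, indicator_of_notMem (mt h6.1 h), smul_zero]
  rw [setIntegral_congr_fun (measurableSet_Ioi.prod measurableSet_Ioo) h5,
    setIntegral_indicator (measurableSet_Iio.prod MeasurableSet.univ), prod_inter_prod,
    Ioi_inter_Iio, inter_univ, Measure.volume_eq_prod, setIntegral_prod]
  · have h7 : -π ≤ π := by linarith [pi_pos]
    simp only [intervalIntegral.integral_of_le h0.le, intervalIntegral.integral_of_le h7,
      integral_Ioc_eq_integral_Ioo]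
  · exact ((cont_BJ hF hδ h1 (Icc (-π) π)).2.integrableOn_compact
      (isCompact_Icc.prod isCompact_Icc)).mono_set
        (prod_mono Ioo_subset_Icc_self Ioo_subset_Icc_self)

theorem av_eq {E : Type} [NormedAddCommGroup E] [NormedSpace ℝ E] (G : ℂ → E) (r : ℝ) :
    circleAverage G 0 r = (2 * π)⁻¹ • ∫ θ in -π..π, G (r * ex θ) := by
  rw [circleAverage_eq_integral_add (-π),
    intervalIntegral.integral_comp_add_right (fun θ => G (circleMap 0 r θ))]
  simp only [circleMap_zero, ex, zero_add]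
  congr 2
  ring

theorem area_reg (hF : An F) (hi : InjOn F (ball 0 1)) (hδ : 0 < δ) (h0 : 0 < ρ) (h1 : ρ < 1) :
    circleAverage (fun w => (conj (F w) * (w * deriv F w)).re / (normSq (F w) + δ)) 0 ρ ≤ 1 := by
  have h2 := (green hF hδ h0 h1).le.trans (jac_le hF hi hδ h0 h1)
  rw [av_eq, smul_eq_mul, inv_mul_le_iff₀ two_pi_pos, mul_one]
  refine le_trans (le_of_eq (intervalIntegral.integral_congr fun θ _ => ?_)) h2
  simp only [gN, gD]
  rw [← re_ofReal_mul]
  congr 2
  ring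

end Vale.Agent.P142
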