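import Vale.Agent.P142.Wt

/-! Integral means and area integrals. -/

open Set Filter Topology Metric Real MeasureTheory

namespace Vale.Agent.P142

variable {f : ℂ → ℂ}

theorem Un.mean_le (hf : Un f) : ∃ C : ℝ, 1 ≤ C ∧ ∀ r : ℝ, 0 < r → r < 1 →
    1 / (2 * π) * ∫ θ in -π..π, ‖deriv f (r * ex θ)‖ ^ (-2 : ℝ) ≤ C * (1 - r) ^ (-(1.13 : ℝ)) := by
  obtain ⟨C, hC⟩ := hf.growth
  refine ⟨max C 1, le_max_right _ _, fun r h0 h1 => ?_⟩
  have h := hC r h0 h1
  rw [av_eq, smul_eq_mul, ← one_div] at h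
  have e : ∀ z, ‖deriv f z‖ ^ (-2 : ℝ) = ‖uu f z‖ ^ 2 := fun z => by
    rw [uu, norm_inv, inv_pow, Real.rpow_neg (norm_nonneg _), Real.rpow_two]
  simp only [e]
  exact h.trans (mul_le_mul_of_nonneg_right (le_max_left _ _)
    (Real.rpow_pos_of_pos (by linarith) _).le)

theorem Un.pol_cont (hf : Un f) {r : ℝ} (h0 : 0 < r) (h1 : r < 1) (t : ℝ) :
    Continuous fun θ : ℝ => ‖deriv f (r * ex θ)‖ ^ t := by
  have hm := ex_mem (r := r) (by rwa [abs_of_pos h0])
  refine Continuous.rpow_const (Continuous.norm ?_) fun θ =>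
    Or.inl (norm_ne_zero_iff.2 (hf.der_ne (hm θ)))
  exact hf.an.der.continuousOn.comp_continuous (continuous_const.mul ex_cont) hm

theorem young {x y t : ℝ} (hx : 0 < x) (hy : 0 < y) (h1 : -2 ≤ t) (h2 : t ≤ 0) :
    x ^ t ≤ (1 + x ^ (-2 : ℝ) * y ^ (1.13 : ℝ)) * y ^ (1.13 * t / 2) := by
  have h3 : (x ^ (-2 : ℝ) * y ^ (1.13 : ℝ)) ^ (-t / 2) ≤ 1 + x ^ (-2 : ℝ) * y ^ (1.13 : ℝ) := by
    have h0 : 0 < x ^ (-2 : ℝ) * y ^ (1.13 : ℝ) := by positivity
    rcases le_total (x ^ (-2 : ℝ) * y ^ (1.13 : ℝ)) 1 with h | h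
    · have := Real.rpow_le_one h0.le h (show 0 ≤ -t / 2 by linarith)
      linarith
    · have := Real.rpow_le_rpow_of_exponent_le h (show -t / 2 ≤ 1 by linarith)
      rw [Real.rpow_one] at this
      linarith
  refine le_trans (le_of_eq ?_) (mul_le_mul_of_nonneg_right h3 (by positivity))
  rw [Real.mul_rpow (by positivity) (by positivity), ← Real.rpow_mul hx.le, ← Real.rpow_mul hy.le,
    mul_assoc, ← Real.rpow_add hy, show 1.13 * (-t / 2) + 1.13 * t / 2 = 0 by ring, Real.rpow_zero,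
    mul_one]
  congr 1
  ring

theorem Un.mean_le' (hf : Un f) {t : ℝ} (h1 : -2 ≤ t) (h2 : t ≤ 0) : ∃ C : ℝ, ∀ r : ℝ, 0 < r →
    r < 1 → ∫ θ in -π..π, ‖deriv f (r * ex θ)‖ ^ t ≤ C * (1 - r) ^ (1.13 * t / 2) := by
  obtain ⟨C, -, hC⟩ := hf.mean_le
  refine ⟨2 * π * (1 + C), fun r h0 hr => ?_⟩
  have hy : 0 < 1 - r := by linarith
  have hm := ex_mem (r := r) (by rwa [abs_of_pos h0])
  have c2 := hf.pol_cont h0 hr (-2)
  have h3 := intervalIntegral.integral_mono (a := -π) (b := π) (μ := volume)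
    (by linarith [pi_pos]) ((hf.pol_cont h0 hr t).intervalIntegrable _ _)
    (Continuous.intervalIntegrable (by fun_prop) _ _)
    fun θ => young (norm_pos_iff.2 (hf.der_ne (hm θ))) hy h1 h2
  refine h3.trans ?_
  rw [intervalIntegral.integral_mul_const, intervalIntegral.integral_add intervalIntegrable_const
    ((c2.intervalIntegrable _ _).mul_const _), intervalIntegral.integral_mul_const,
    intervalIntegral.integral_const, smul_eq_mul]
  refine mul_le_mul_of_nonneg_right ?_ (by positivity)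
  have h4 := hC r h0 hr
  rw [Real.rpow_neg hy.le, ← div_eq_mul_inv, le_div_iff₀ (by positivity), mul_assoc, one_div,
    inv_mul_le_iff₀ (by positivity)] at h4
  linarith

theorem Un.integrable (hf : Un f) {t : ℝ} (h1 : -2 / 1.13 < t) (h2 : t ≤ 0) :
    IntegrableOn (fun z => ‖deriv f z‖ ^ t) (ball 0 1) := by
  have h1' : -1 < 1.13 * t / 2 := by
    rw [div_lt_iff₀ (by norm_num)] at h1
    linarith
  obtain ⟨C, hC⟩ := hf.mean_le' (t := t) (by linarith) h2
  have hm : Measurable fun z => ‖deriv f z‖ ^ t := (measurable_deriv f).norm.pow_const t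
  refine ⟨hm.aestronglyMeasurable, ?_⟩
  rw [hasFiniteIntegral_iff_ofReal (Eventually.of_forall fun z => by positivity),
    ← lintegral_indicator measurableSet_ball, ← Complex.lintegral_comp_polarCoord_symm,
    polarCoord_target, Measure.volume_eq_prod, setLIntegral_prod]
  · have i1 : IntegrableOn (fun r : ℝ => C * (1 - r) ^ (1.13 * t / 2)) (Ioo 0 1) := by
      have := (intervalIntegral.intervalIntegrable_rpow' (a := 1) (b := 0) h1').comp_sub_left 1
      rw [sub_self, sub_zero, intervalIntegrable_iff_integrableOn_Ioo_of_le zero_le_one] at this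
      exact this.const_mul C
    refine lt_of_le_of_lt ?_ i1.lintegral_lt_top
    rw [show Ioo (0 : ℝ) 1 = Iio 1 ∩ Ioi 0 from (inter_comm _ _).trans Ioi_inter_Iio |>.symm,
      ← Measure.restrict_restrict measurableSet_Iio, ← lintegral_indicator measurableSet_Iio]
    refine setLIntegral_mono' measurableSet_Ioi fun r hr => ?_
    have h0 : 0 < r := hr
    simp only [pol_eq]
    have hn : ∀ θ, ‖(r : ℂ) * ex θ‖ = r := fun θ => by
      rw [norm_mul, ex_norm, mul_one, Complex.norm_real, Real.norm_of_nonneg h0.le]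
    by_cases h : r < 1
    · have h3 : ∀ θ, (r : ℂ) * ex θ ∈ ball (0 : ℂ) 1 := fun θ => by
        rwa [mem_ball_zero_iff, hn]
      simp only [indicator_of_mem (h3 _), indicator_of_mem (show r ∈ Iio 1 from h)]
      have h4 := hC r h0 h
      rw [intervalIntegral.integral_of_le (by linarith [pi_pos]), integral_Ioc_eq_integral_Ioo]
        at h4
      refine le_trans ?_ (ENNReal.ofReal_le_ofReal h4)
      rw [ofReal_integral_eq_lintegral_ofReal
        (((hf.pol_cont h0 h t).integrableOn_Icc).mono_set Ioo_subset_Icc_self)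
        (Eventually.of_forall fun z => by positivity)]
      refine lintegral_mono fun θ => ?_
      exact mul_le_of_le_one_left' (ENNReal.ofReal_le_one.2 h.le)
    · have h3 : ∀ θ, (r : ℂ) * ex θ ∉ ball (0 : ℂ) 1 := fun θ => by
        rwa [mem_ball_zero_iff, hn]
      simp only [indicator_of_notMem (h3 _)]
      simp
  · refine Measurable.aemeasurable (Measurable.mul (by fun_prop) ?_)
    refine (hm.ennreal_ofReal.indicator measurableSet_ball).comp ?_
    have : (Complex.polarCoord.symm : ℝ × ℝ → ℂ) = fun p => p.1 * ex p.2 := funext pol_eq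
    rw [this]
    exact Continuous.measurable
      ((Complex.continuous_ofReal.comp continuous_fst).mul (ex_cont.comp continuous_snd))

theorem limsup_le {M : ℝ → ℝ} {C b : ℝ} (hC : 1 ≤ C) (hb : 0 ≤ b) (h0 : ∀ r, 0 ≤ M r)
    (h : ∀ r : ℝ, 0 < r → r < 1 → M r ≤ C * (1 - r) ^ (-b)) :
    limsup (fun r : ℝ => ((log (M r) / log (1 / (1 - r)) : ℝ) : EReal)) (𝓝[<] 1) ≤ b := by
  have t0 : Tendsto (fun r : ℝ => 1 - r) (𝓝[<] 1) (𝓝[>] 0) := by
    refine tendsto_nhdsWithin_iff.2 ⟨?_, eventually_nhdsWithin_of_forall fun r hr =>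
      mem_Ioi.2 (sub_pos.2 hr)⟩
    exact ((continuous_sub_left 1).tendsto' 1 0 (sub_self _)).mono_left nhdsWithin_le_nhds
  have t1 : Tendsto (fun r : ℝ => log (1 / (1 - r))) (𝓝[<] 1) atTop := by
    simp only [one_div]
    exact tendsto_log_atTop.comp (tendsto_inv_nhdsGT_zero.comp t0)
  have t2 : Tendsto (fun r : ℝ => b + log C / log (1 / (1 - r))) (𝓝[<] 1) (𝓝 b) := by
    simpa using (tendsto_const_nhds.div_atTop t1).const_add b
  rw [← (EReal.tendsto_coe.2 t2).limsup_eq]
  refine limsup_le_limsup ?_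
  filter_upwards [Ioo_mem_nhdsLT zero_lt_one, t1.eventually_gt_atTop 0] with r hr hL
  have hy : 0 < 1 - r := sub_pos.2 hr.2
  rw [EReal.coe_le_coe_iff, div_le_iff₀ hL, add_mul, div_mul_cancel₀ _ hL.ne']
  have hC' := Real.log_nonneg hC
  rcases (h0 r).eq_or_lt with e | e
  · rw [← e, Real.log_zero]
    positivity
  · refine (Real.log_le_log e (h r hr.1 hr.2)).trans (le_of_eq ?_)
    rw [Real.log_mul (by linarith) (by positivity), Real.log_rpow hy, one_div, Real.log_inv]
    ring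

end Vale.Agent.P142
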