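import Mathlib

/-! The numerical inequality. -/

open Set Filter Topology Real MeasureTheory Finset

namespace Vale.Agent.P142

theorem riem {g : ℝ → ℝ} (hg : Continuous g) {ε : ℝ} (hε : 0 < ε) :
    ∃ δ > 0, ∀ N : ℕ, 0 < N → ∀ ξ : ℕ → ℝ, (∀ j < N, ξ j ∈ Set.Icc (0 : ℝ) 1 ∧
      ∀ t : ℝ, (j : ℝ) / N ≤ t → t ≤ (j + 1 : ℝ) / N → |t - ξ j| < δ) →
      N * ((∫ t in (0 : ℝ)..1, g t) - ε) ≤ ∑ j ∈ range N, g (ξ j) := by
  obtain ⟨δ, hδ, h⟩ := Metric.uniformContinuousOn_iff.1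
    ((isCompact_Icc (a := (0 : ℝ)) (b := 1)).uniformContinuousOn_of_continuous hg.continuousOn)
    ε hε
  refine ⟨δ, hδ, fun N hN ξ hξ => ?_⟩
  have hN' : (0 : ℝ) < N := Nat.cast_pos.2 hN
  have e := intervalIntegral.sum_integral_adjacent_intervals (f := g) (μ := volume)
    (a := fun j : ℕ => (j : ℝ) / N) (n := N) fun k _ => hg.intervalIntegrable _ _
  simp only [Nat.cast_zero, zero_div, div_self hN'.ne'] at e
  have key : ∀ j ∈ range N, ∫ t in (j : ℝ) / N..((j + 1 : ℕ) : ℝ) / N, g t ≤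
      (g (ξ j) + ε) / N := by
    intro j hj
    have hj' : j < N := Finset.mem_range.1 hj
    have h1 : (j : ℝ) / N ≤ ((j + 1 : ℕ) : ℝ) / N := by gcongr; omega
    have h2 : ((j + 1 : ℕ) : ℝ) / N ≤ 1 := (div_le_one hN').2 (Nat.cast_le.2 hj')
    calc _ ≤ ∫ _ in (j : ℝ) / N..((j + 1 : ℕ) : ℝ) / N, (g (ξ j) + ε) := by
          refine intervalIntegral.integral_mono_on h1 (hg.intervalIntegrable _ _)
            intervalIntegrable_const fun t ht => ?_
          have h3 := h t ⟨le_trans (by positivity) ht.1, ht.2.trans h2⟩ (ξ j) (hξ j hj').1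
            ((hξ j hj').2 t ht.1 (by simpa using ht.2))
          rw [Real.dist_eq, abs_lt] at h3
          linarith
      _ = _ := by
          rw [intervalIntegral.integral_const, smul_eq_mul]
          push_cast
          ring
  have h4 := Finset.sum_le_sum key
  rw [e, ← Finset.sum_div, le_div_iff₀ hN', Finset.sum_add_distrib, Finset.sum_const,
    Finset.card_range, nsmul_eq_mul] at h4
  linarith

/-- the denominator -/
noncomputable def DD (x : ℝ) : ℝ := 1 + 6.52 * x ^ 2 + 1.52 * x ^ 4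

/-- an approximation of its inverse -/
noncomputable def qq (x : ℝ) : ℝ := 0.94 - 3.55 * x ^ 2 + 5.73 * x ^ 4 - 3.15 * x ^ 6

/-- the polynomial lower bound -/
noncomputable def ps (x : ℝ) : ℝ := (1 - x ^ 2) * (2 * qq x - qq x ^ 2 * DD x)

theorem ps_cont : Continuous ps := by
  unfold ps qq DD
  fun_prop

/-- its coefficients -/
noncomputable def pc : Fin 10 → ℝ := ![2491 / 2500, -448967 / 62500, 1822179 / 50000,
  -8263211 / 62500, 7877293 / 25000, -5826107 / 12500, 9862347 / 25000, -18920799 / 125000,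
  -262899 / 50000, 75411 / 5000]

theorem ps_int : 0.3808 ≤ ∫ t in (0 : ℝ)..1, ps (1 - 2 * t) := by
  rw [intervalIntegral.integral_comp_sub_mul ps two_ne_zero 1]
  have e : ps = fun x => ∑ k : Fin 10, pc k * x ^ (2 * (k : ℕ)) := by
    ext x
    simp only [ps, qq, DD, pc, Fin.sum_univ_succ, Fin.sum_univ_zero, Matrix.cons_val_zero,
      Matrix.cons_val_succ, Fin.val_zero, Fin.val_succ]
    ring
  rw [e, intervalIntegral.integral_finsetSum fun k _ =>
    (by fun_prop : Continuous fun x : ℝ => pc k * x ^ (2 * (k : ℕ))).intervalIntegrable _ _]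
  simp only [intervalIntegral.integral_const_mul, integral_pow, pc, Fin.sum_univ_succ,
    Fin.sum_univ_zero, Matrix.cons_val_zero, Matrix.cons_val_succ, Fin.val_zero, Fin.val_succ]
  norm_num

theorem DD_ge (x : ℝ) : 1 ≤ DD x := by
  unfold DD
  nlinarith [sq_nonneg x, sq_nonneg (x ^ 2)]

theorem ps_le {x : ℝ} (hx : x ^ 2 ≤ 1) : ps x ≤ (1 - x ^ 2) / DD x := by
  have h := DD_ge x
  rw [ps, div_eq_mul_inv]
  refine mul_le_mul_of_nonneg_left ?_ (sub_nonneg.2 hx)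
  rw [← one_div, le_div_iff₀ (by linarith)]
  nlinarith [sq_nonneg (1 - qq x * DD x)]

theorem pw_le {x : ℝ} (hx : -1 < x) : (1 + x) ^ (4.13 : ℝ) ≤ (1 + x) ^ 4 * (1 + 0.13 * x) := by
  rw [show (4.13 : ℝ) = (4 : ℕ) + 0.13 by norm_num, Real.rpow_add (by linarith),
    Real.rpow_natCast]
  exact mul_le_mul_of_nonneg_left
    (rpow_one_add_le_one_add_mul_self hx.le (by norm_num) (by norm_num)) (by positivity)

theorem den_le {M x : ℝ} (hM : 0 < M) (h1 : -1 < x) (h2 : x < 1) :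
    (M * (1 - x)) ^ (4.13 : ℝ) + (M * (1 + x)) ^ (4.13 : ℝ) ≤ M ^ (4.13 : ℝ) * (2 * DD x) := by
  rw [Real.mul_rpow hM.le (by linarith), Real.mul_rpow hM.le (by linarith), ← mul_add]
  refine mul_le_mul_of_nonneg_left ?_ (by positivity)
  have a1 := pw_le h1
  have a2 := pw_le (x := -x) (by linarith)
  rw [← sub_eq_add_neg] at a2
  have : (1 - x) ^ 4 * (1 + 0.13 * -x) + (1 + x) ^ 4 * (1 + 0.13 * x) = 2 * DD x := by
    unfold DD
    ring
  linarith

/-- the kernel -/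
noncomputable def kk (j s : ℕ) : ℝ :=
  (j : ℝ) * s / ((j + 2 : ℝ) ^ (4.13 : ℝ) + (s + 2 : ℝ) ^ (4.13 : ℝ))

theorem kk_ge (j s : ℕ) : ((j + s + 4 : ℝ) / 2) ^ (-(2.13 : ℝ)) / 2 *
    (ps (1 - 2 * ((j + 2) / (j + s + 4))) - 8 / (j + s + 4)) ≤ kk j s := by
  have hj : (0 : ℝ) ≤ j := Nat.cast_nonneg j
  have hs : (0 : ℝ) ≤ s := Nat.cast_nonneg s
  set M : ℝ := (j + s + 4) / 2 with hM
  set x : ℝ := 1 - 2 * ((j + 2) / (j + s + 4)) with hx
  have hM0 : 0 < M := by positivity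
  have e1 : M * (1 - x) = j + 2 := by rw [hM, hx]; field_simp; ring
  have e2 : M * (1 + x) = s + 2 := by rw [hM, hx]; field_simp; ring
  have h1 : -1 < x := by nlinarith
  have h2 : x < 1 := by nlinarith
  have h3 := den_le hM0 h1 h2
  rw [e1, e2] at h3
  have hD := DD_ge x
  have h4 : (j : ℝ) * s / (M ^ (4.13 : ℝ) * (2 * DD x)) ≤ kk j s :=
    div_le_div_of_nonneg_left (by positivity) (by positivity) h3
  refine le_trans ?_ h4
  have e3 : M ^ (4.13 : ℝ) = M ^ 2 * M ^ (2.13 : ℝ) := by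
    rw [show (4.13 : ℝ) = (2 : ℕ) + 2.13 by norm_num, Real.rpow_add hM0, Real.rpow_natCast]
  have hP : 0 < M ^ (2.13 : ℝ) := by positivity
  have h5 : ps x - 8 / (j + s + 4) ≤ j * s / (M ^ 2 * DD x) := by
    have h6 := ps_le (x := x) (by nlinarith)
    have h7 : (8 : ℝ) / (j + s + 4) = 4 / M := by rw [hM]; field_simp; ring
    have h8 : 4 / M / DD x ≤ 4 / M := div_le_self (by positivity) hD
    have h9 : (1 - x ^ 2) / DD x - 4 / M / DD x ≤ j * s / (M ^ 2 * DD x) := by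
      rw [← sub_div, ← div_div]
      refine div_le_div_of_nonneg_right ?_ (by linarith)
      rw [le_div_iff₀ (by positivity)]
      have : (1 - x ^ 2 - 4 / M) * M ^ 2 = (M * (1 - x)) * (M * (1 + x)) - 4 * M := by
        field_simp
        ring
      rw [this, e1, e2, hM]
      nlinarith
    linarith
  rw [Real.rpow_neg hM0.le, e3]
  calc _ ≤ (M ^ (2.13 : ℝ))⁻¹ / 2 * (j * s / (M ^ 2 * DD x)) :=
        mul_le_mul_of_nonneg_left h5 (by positivity)
    _ = _ := by field_simp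

theorem two_pow_ge : (1.0941 : ℝ) ≤ 2 ^ (0.13 : ℝ) := by
  rw [Real.rpow_def_of_pos two_pos]
  have h := Real.log_two_gt_d9
  have h2 := Real.quadratic_le_exp_of_nonneg (x := Real.log 2 * 0.13) (by positivity)
  nlinarith

theorem num : ∃ c > 1, ∃ N₀ : ℕ, ∀ m ≥ N₀, c * ((m : ℝ) + 2) ^ (-(1.13 : ℝ)) ≤
    1.13 * 2.13 / 2 * ∑ j ∈ range (m + 1), kk j (m - j) := by
  refine ⟨1.13 * 2.13 * 1.0941 * 0.38, by norm_num, ?_⟩
  obtain ⟨δ, hδ, h⟩ := riem (g := fun t => ps (1 - 2 * t)) (ps_cont.comp (by fun_prop))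
    (ε := 0.0004) (by norm_num)
  have t1 : Tendsto (fun m : ℕ => ((m : ℝ) + 4)⁻¹) atTop (𝓝 0) :=
    tendsto_inv_atTop_zero.comp (tendsto_atTop_add_const_right _ _ tendsto_natCast_atTop_atTop)
  have c1 : Continuous fun w : ℝ => (1 - 2 * w) ^ 2 * ((1 - 3 * w) * (0.3804 - 8 * w)) := by
    fun_prop
  have t2 := ((c1.tendsto 0).comp t1).eventually (lt_mem_nhds (a := 0.38) (by norm_num))
  have t3 := (t1.const_mul 12).eventually (gt_mem_nhds (a := δ) (by simpa using hδ))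
  obtain ⟨N₀, hN⟩ := eventually_atTop.1 (t2.and t3)
  refine ⟨N₀, fun m hm => ?_⟩
  obtain ⟨a1, a2⟩ := hN m hm
  simp only [Function.comp] at a1
  have hm0 : (0 : ℝ) ≤ m := Nat.cast_nonneg m
  have b1 := h (m + 1) (Nat.succ_pos m) (fun j => (j + 2) / (m + 4)) fun j hj => by
    have hj' : (j : ℝ) ≤ m := Nat.cast_le.2 (Nat.lt_succ_iff.1 hj)
    have hj0 : (0 : ℝ) ≤ j := Nat.cast_nonneg j
    refine ⟨⟨by positivity, (div_le_one (by positivity)).2 (by linarith)⟩, fun t h1 h2 => ?_⟩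
    push_cast at h1 h2
    refine lt_of_le_of_lt ?_ a2
    rw [div_le_iff₀ (by positivity)] at h1
    rw [le_div_iff₀ (by positivity)] at h2
    have h3 : 0 ≤ t := by nlinarith
    have h4 : t ≤ 1 := by nlinarith
    rw [show t - (j + 2) / (m + 4) = (t * (m + 4) - (j + 2)) * ((m : ℝ) + 4)⁻¹ by field_simp,
      abs_mul, abs_of_pos (a := ((m : ℝ) + 4)⁻¹) (by positivity)]
    refine mul_le_mul_of_nonneg_right (abs_le.2 ⟨?_, ?_⟩) (by positivity) <;> nlinarith
  have b2 : ∑ j ∈ range (m + 1), (((m : ℝ) + 4) / 2) ^ (-(2.13 : ℝ)) / 2 *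
      (ps (1 - 2 * ((j + 2) / (m + 4))) - 8 / (m + 4)) ≤ ∑ j ∈ range (m + 1), kk j (m - j) := by
    refine Finset.sum_le_sum fun j hj => ?_
    have hj' : j ≤ m := Nat.lt_succ_iff.1 (Finset.mem_range.1 hj)
    have := kk_ge j (m - j)
    rwa [Nat.cast_sub hj', add_sub_cancel] at this
  rw [← Finset.mul_sum, Finset.sum_sub_distrib, Finset.sum_const, Finset.card_range,
    nsmul_eq_mul] at b2
  push_cast at b1 b2
  have b3 : ((m : ℝ) + 1) * (0.3804 - 8 * ((m : ℝ) + 4)⁻¹) ≤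
      ∑ j ∈ range (m + 1), ps (1 - 2 * ((j + 2) / (m + 4))) - (m + 1) * (8 / (m + 4)) := by
    have := ps_int
    rw [div_eq_mul_inv 8]
    nlinarith
  set w := ((m : ℝ) + 4)⁻¹ with hw
  have hw0 : 0 < w := by positivity
  have e1 : (m : ℝ) + 1 = (1 - 3 * w) / w := by rw [hw]; field_simp; ring
  have e2 : (m : ℝ) + 2 = (1 - 2 * w) / w := by rw [hw]; field_simp; ring
  have e3 : ((m : ℝ) + 4) / 2 = (2 * w)⁻¹ := by rw [hw]; field_simp
  have hw1 : 0 < 1 - 2 * w := by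
    have : 0 < (1 - 2 * w) / w := e2 ▸ by positivity
    exact (div_pos_iff_of_pos_right hw0).1 this
  have f1 : ((m : ℝ) + 2) ^ (-(1.13 : ℝ)) * (1 - 2 * w) ^ 2 ≤ w ^ (1.13 : ℝ) := by
    rw [e2, Real.rpow_neg (by positivity), Real.div_rpow hw1.le hw0.le, inv_div, div_mul_eq_mul_div,
      div_le_iff₀ (by positivity)]
    refine mul_le_mul_of_nonneg_left ?_ (by positivity)
    rw [← Real.rpow_natCast]
    exact Real.rpow_le_rpow_of_exponent_ge hw1 (by linarith) (by norm_num)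
  have f2 : (((m : ℝ) + 4) / 2) ^ (-(2.13 : ℝ)) = 4 * 2 ^ (0.13 : ℝ) * (w * w ^ (1.13 : ℝ)) := by
    rw [e3, Real.rpow_neg (by positivity), Real.inv_rpow (by positivity), inv_inv,
      Real.mul_rpow two_pos.le hw0.le]
    congr 1
    · rw [show (2.13 : ℝ) = (2 : ℕ) + 0.13 by norm_num, Real.rpow_add two_pos, Real.rpow_natCast]
      norm_num
    · rw [show (2.13 : ℝ) = 1 + 1.13 by norm_num, Real.rpow_add hw0, Real.rpow_one]
  have f3 := two_pow_ge
  have f4 : 0 < (1 - 3 * w) * (0.3804 - 8 * w) := by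
    by_contra hc
    nlinarith [mul_nonneg (sq_nonneg (1 - 2 * w)) (neg_nonneg.2 (not_lt.1 hc))]
  have hP : 0 < ((m : ℝ) + 2) ^ (-(1.13 : ℝ)) := by positivity
  have hQ : 0 < w ^ (1.13 : ℝ) := by positivity
  have f5 : 0.38 * ((m : ℝ) + 2) ^ (-(1.13 : ℝ)) ≤
      w ^ (1.13 : ℝ) * ((1 - 3 * w) * (0.3804 - 8 * w)) := by
    nlinarith [mul_le_mul_of_nonneg_right f1 f4.le, mul_le_mul_of_nonneg_right a1.le hP.le]
  have f6 : 2 * 2 ^ (0.13 : ℝ) * (w ^ (1.13 : ℝ) * ((1 - 3 * w) * (0.3804 - 8 * w))) ≤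
      ∑ j ∈ range (m + 1), kk j (m - j) := by
    refine le_trans (le_of_eq ?_) ((mul_le_mul_of_nonneg_left b3 (by positivity)).trans b2)
    rw [f2, e1]
    field_simp
    ring
  nlinarith [mul_le_mul f3 f5 (by positivity) (by positivity)]

end Vale.Agent.P142
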