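import Vale.Agent.P142.Area

/-! The double coefficients of `1 / (f w - f z)`. -/

open Set Filter Topology Metric Complex Real MeasureTheory
open scoped ComplexConjugate

namespace Vale.Agent.P142

variable {f g : ℂ → ℂ} {z w : ℂ} {r ρ : ℝ}

theorem Co.cm (hg : Co g r) (c : ℂ) : Co (fun w => c * g w) r := continuousOn_const.mul hg

theorem fc_out (hz : ‖z‖ < r) (s : ℕ) : fc (fun w => (w - z)⁻¹) r s = 0 := by
  have h0 : 0 < r := (norm_nonneg z).trans_lt hz
  have h1 := av_conj h0 ((co_inv hz).zp h0 (-(s : ℤ)))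
  have h2 : DifferentiableOn ℂ (fun w : ℂ => w * ((r : ℂ) ^ 2 - conj z * w)⁻¹ * (w / r ^ 2) ^ s)
      (closedBall 0 r) := by
    have := den_diff hz
    fun_prop
  have h3 := mean' h0 h2
  rw [zero_mul, zero_mul] at h3
  rw [← map_eq_zero (starRingEnd ℂ), fc, ← h1]
  refine Eq.trans (circleAverage_congr_sphere fun w hw => ?_) h3
  have hw' := sph_abs h0 hw
  rw [map_mul, conj_inv hz hw', zpow_neg, zpow_natCast, map_inv₀, map_pow, conj_sph h0 hw',
    ← inv_pow, inv_div]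

theorem fc_in (h0 : 0 < r) (hw : r < ‖w‖) (j : ℕ) :
    fc (fun z => (z - w)⁻¹) r j = -(w ^ (j + 1))⁻¹ := by
  have hn : ∀ z ∈ closedBall (0 : ℂ) r, z - w ≠ 0 := by
    intro z hz e
    rw [← sub_eq_zero.1 e] at hw
    exact hw.not_ge (by simpa using hz)
  have hd : DifferentiableOn ℂ (fun z => (z - w)⁻¹) (closedBall 0 r) :=
    DifferentiableOn.inv (by fun_prop) hn
  have hc : Co (fun z => (z - w)⁻¹) r := hd.continuousOn.mono sphere_subset_closedBall
  have hw0 : w ≠ 0 := norm_pos_iff.1 (h0.trans hw)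
  induction j with
  | zero => simpa [fc] using mean' h0 hd
  | succ j ih =>
    have h1 := fc_shift (g := fun z => (z - w)⁻¹) h0 (j : ℤ)
    have h2 : fc (fun z => z * (z - w)⁻¹) r (j + 1) =
        fc (fun z => 1 + w * (z - w)⁻¹) r (j + 1) := by
      refine fc_congr h0 (fun z hz => ?_) _
      have := hn z (sphere_subset_closedBall hz)
      field_simp
      ring
    have h3 : fc (fun _ => 1) r (j + 1) = 0 := by
      have h6 := av_conj h0 (Co.zp (g := fun _ => 1) continuousOn_const h0 (-(j + 1 : ℤ)))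
      have h7 := mean' (g := fun z : ℂ => (z / r ^ 2) ^ (j + 1)) h0 (by fun_prop)
      rw [zero_div, zero_pow j.succ_ne_zero] at h7
      rw [← map_eq_zero (starRingEnd ℂ), fc, ← h6]
      refine Eq.trans (circleAverage_congr_sphere fun z hz => ?_) h7
      rw [one_mul, zpow_neg, ← Nat.cast_succ, zpow_natCast, map_inv₀, map_pow,
        conj_sph h0 (sph_abs h0 hz), ← inv_pow, inv_div]
    rw [h2, fc_add h0 continuousOn_const (hc.cm w), h3, fc_mul, ih,
      zero_add] at h1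
    push_cast
    rw [pow_succ w (j + 1), mul_inv, ← neg_mul, ← h1]
    field_simp

/-- coefficients of the regular part -/
noncomputable def hh (f : ℂ → ℂ) (s : ℕ) (z : ℂ) : ℂ := co (HH f z) s

theorem Un.hh_eq (hf : Un f) (hz : ‖z‖ < ρ) (h1 : ρ < 1) (s : ℕ) :
    fc (fun w => (f w - f z)⁻¹) ρ s = hh f s z := by
  have h0 : 0 < ρ := (norm_nonneg z).trans_lt hz
  have hz1 : z ∈ ball (0 : ℂ) 1 := by simpa using hz.trans h1
  rw [fc_congr h0 fun w hw => hf.G_eq hz1 (sph_sub h1 hw) (sph_ne' hz hw),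
    fc_add h0 ((hf.H_an hz1).cs h1) ((co_inv hz).cm _), fc_mul, fc_out hz,
    mul_zero, add_zero, (hf.H_an hz1).fc_nat h0 h1, hh]

theorem Un.hh_in (hf : Un f) (h0 : 0 < r) (hw : r < ‖w‖) (h1 : ‖w‖ < 1) (j : ℕ) :
    fc (fun z => (f w - f z)⁻¹) r j = uu f w * w ^ (-((j : ℤ) + 1)) - hh f j w := by
  have hw1 : w ∈ ball (0 : ℂ) 1 := by simpa using h1
  have hr := hw.trans h1
  have hn : ∀ z ∈ sphere (0 : ℂ) r, z ≠ w := by
    rintro z hz rfl
    simp only [mem_sphere_iff_norm, sub_zero] at hz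
    exact hw.ne' hz
  have hc : Co (fun z => (z - w)⁻¹) r :=
    (continuousOn_id.sub continuousOn_const).inv₀ fun z hz => sub_ne_zero.2 (hn z hz)
  have e : EqOn (fun z => (f w - f z)⁻¹) (fun z => -1 * (HH f w z + uu f w * (z - w)⁻¹))
      (sphere 0 r) := by
    intro z hz
    simp only
    rw [← hf.G_eq hw1 (sph_sub hr hz) (hn z hz), ← neg_sub, inv_neg, neg_one_mul]
  rw [fc_congr h0 e, fc_mul, fc_add h0 ((hf.H_an hw1).cs hr) (hc.cm _), fc_mul,
    fc_in h0 hw, (hf.H_an hw1).fc_nat h0 hr, hh, zpow_neg, ← Nat.cast_succ, zpow_natCast,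
    Nat.succ_eq_add_one]
  ring

theorem Un.G_cont (hf : Un f) (hr : r < ρ) (h1 : ρ < 1) :
    ContinuousOn (Function.uncurry fun z w => (f w - f z)⁻¹) (sphere 0 r ×ˢ sphere 0 ρ) := by
  refine ContinuousOn.inv₀ (((hf.an.cs h1).comp continuousOn_snd fun _ hp => hp.2).sub
    ((hf.an.cs (hr.trans h1)).comp continuousOn_fst fun _ hp => hp.1)) fun p hp => ?_
  refine hf.sub_ne (sph_sub (hr.trans h1) hp.1) (sph_sub h1 hp.2) (sph_ne' ?_ hp.2)
  have : ‖p.1‖ = r := by simpa using hp.1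
  rwa [this]

theorem sph_norm (hw : w ∈ sphere (0 : ℂ) r) : ‖w‖ = r := by simpa using hw

theorem Un.hh_co (hf : Un f) (h0 : 0 < r) (h1 : r < 1) (s : ℕ) : Co (hh f s) r := by
  have h2 : r < (r + 1) / 2 := by linarith
  have h3 : (r + 1) / 2 < 1 := by linarith
  exact (fc_cont (h0.trans h2) (hf.G_cont h2 h3) s).congr fun z hz =>
    (hf.hh_eq (by rwa [sph_norm hz]) h3 s).symm

theorem Un.sym0 (hf : Un f) (h0 : 0 < r) (hr : r < ρ) (h1 : ρ < 1) (j s : ℕ) :
    fc (hh f s) r j + fc (hh f j) ρ s = co (uu f) (j + s + 1) := by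
  have h0' := h0.trans hr
  have h2 := fc_swap h0 h0' (hf.G_cont hr h1) j s
  rw [fc_congr h0 fun z hz => hf.hh_eq (by rwa [sph_norm hz]) h1 s,
    fc_congr h0' fun w hw => hf.hh_in h0 (by rwa [sph_norm hw]) (by rwa [sph_norm hw]) j,
    fc_sub h0' ((hf.u_an.cs h1).zp h0' _) (hf.hh_co h0' h1 j)] at h2
  rw [eq_sub_iff_add_eq.1 h2, ← hf.u_an.fc_nat h0' h1, fc, fc]
  refine circleAverage_congr_sphere fun w hw => ?_
  rw [mul_assoc, ← zpow_add₀ (sph_ne h0' (sph_abs h0' hw))]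
  congr 2
  push_cast
  ring

/-- the double coefficients -/
noncomputable def TT (f : ℂ → ℂ) (j s : ℕ) : ℂ := fc (hh f s) (1 / 2) j

theorem Un.TT_eq (hf : Un f) (h0 : 0 < r) (h1 : r < 1) (j s : ℕ) : fc (hh f s) r j = TT f j s := by
  obtain ⟨ρ, h2, h3⟩ := exists_between (max_lt h1 (by norm_num : (1 / 2 : ℝ) < 1))
  exact add_right_cancel ((hf.sym0 h0 (max_lt_iff.1 h2).1 h3 j s).trans
    (hf.sym0 (by norm_num) (max_lt_iff.1 h2).2 h3 j s).symm)

theorem Un.sym (hf : Un f) (j s : ℕ) : TT f j s + TT f s j = co (uu f) (j + s + 1) := by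
  rw [← hf.sym0 (r := 1 / 2) (ρ := 3 / 4) (by norm_num) (by norm_num) (by norm_num),
    hf.TT_eq (r := 3 / 4) (by norm_num) (by norm_num), TT]

theorem Un.two (hf : Un f) {R x : ℝ} (hR : 0 < R) (hR1 : R < 1) (hx : 0 < x) (hx1 : x < 1)
    (N : ℕ) : ∑ s ∈ Finset.range N, ∑ j ∈ Finset.range N,
      s * ‖TT f j s‖ ^ 2 * R ^ (j + s + 1) * x ^ j ≤
        (∑' n, ‖co (uu f) n‖ ^ 2 * R ^ n * x ^ n) / (1 - x) ^ 2 := by
  have h0 : 0 < √(R * x) := Real.sqrt_pos.2 (mul_pos hR hx)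
  have hr : √(R * x) < √R := Real.sqrt_lt_sqrt (mul_pos hR hx).le (mul_lt_of_lt_one_right hR hx1)
  have h1 : √R < 1 := (Real.sqrt_lt' one_pos).2 (by rwa [one_pow])
  have e1 : √(R * x) ^ 2 = R * x := Real.sq_sqrt (mul_pos hR hx).le
  have e2 : √R ^ 2 = R := Real.sq_sqrt hR.le
  generalize √(R * x) = r at *
  generalize √R = ρ at *
  have hr1 := hr.trans h1
  have ih : ∀ s, CircleIntegrable (fun z => ‖hh f s z‖ ^ 2) 0 r := fun s =>
    ((hf.hh_co h0 hr1 s).norm.pow 2).circleIntegrable h0.le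
  have iu : CircleIntegrable (fun z => ‖uu f z‖ ^ 2) 0 r :=
    ((hf.u_an.cs hr1).norm.pow 2).circleIntegrable h0.le
  have hp := (hf.u_an.pars h0 hr1).tsum_eq
  simp only [e1, mul_pow, ← mul_assoc] at hp
  have i2 : ∀ s : ℕ, CircleIntegrable (fun z => ((s : ℝ) * R ^ (s + 1)) • ‖hh f s z‖ ^ 2) 0 r :=
    fun s => (ih s).smul ((s : ℝ) * R ^ (s + 1))
  have i3 : CircleIntegrable (fun z => ((1 - x) ^ 2)⁻¹ • ‖uu f z‖ ^ 2) 0 r :=
    iu.smul (((1 - x) ^ 2)⁻¹ : ℝ)
  rw [hp, div_eq_inv_mul, ← smul_eq_mul, ← circleAverage_fun_smul]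
  calc ∑ s ∈ Finset.range N, ∑ j ∈ Finset.range N, s * ‖TT f j s‖ ^ 2 * R ^ (j + s + 1) * x ^ j
      ≤ ∑ s ∈ Finset.range N,
          circleAverage (fun z => ((s : ℝ) * R ^ (s + 1)) • ‖hh f s z‖ ^ 2) 0 r := by
        refine Finset.sum_le_sum fun s _ => ?_
        rw [circleAverage_fun_smul, smul_eq_mul]
        refine le_trans (le_of_eq ?_) (mul_le_mul_of_nonneg_left
          (bessel h0 (hf.hh_co h0 hr1 s) N) (by positivity))
        rw [Finset.mul_sum]
        refine Finset.sum_congr rfl fun j _ => ?_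
        rw [hf.TT_eq h0 hr1, e1]
        ring
    _ = circleAverage (fun z => ∑ s ∈ Finset.range N,
          ((s : ℝ) * R ^ (s + 1)) • ‖hh f s z‖ ^ 2) 0 r :=
        (circleAverage_fun_sum fun s _ => i2 s).symm
    _ ≤ _ := by
        refine circleAverage_mono (CircleIntegrable.fun_sum _ fun s _ => i2 s) i3 fun z hz => ?_
        have hz' := sph_norm (sph_abs h0 hz)
        have h3 := mul_le_mul_of_nonneg_left (hf.area (by rwa [hz']) h1 N) hR.le
        rw [hz', e1, e2, Finset.mul_sum] at h3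
        refine le_trans (le_of_eq (Finset.sum_congr rfl fun s _ => ?_)) (h3.trans (le_of_eq ?_))
        · rw [smul_eq_mul, hh]
          ring
        · have : 1 - x ≠ 0 := by linarith
          rw [smul_eq_mul, ← mul_one_sub]
          field_simp

end Vale.Agent.P142
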