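import Vale.Agent.P142.Two
import Vale.Agent.P142.Num

/-! Power weights. -/

open Set Filter Topology Real MeasureTheory Finset

namespace Vale.Agent.P142

theorem gam_int {a r : ℝ} (ha : 0 < a) (hr : 0 < r) :
    IntegrableOn (fun t : ℝ => t ^ (a - 1) * exp (-(r * t))) (Ioi 0) :=
  .of_integral_ne_zero (by
    rw [integral_rpow_mul_exp_neg_mul_Ioi ha hr]
    have := Gamma_pos_of_pos ha
    positivity)

theorem gam_val {a r : ℝ} (ha : 0 < a) (hr : 0 < r) :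
    ∫ t : ℝ in Ioi 0, t ^ (a - 1) * exp (-(r * t)) = Gamma a * r ^ (-a) := by
  rw [integral_rpow_mul_exp_neg_mul_Ioi ha hr, one_div, inv_rpow hr.le, rpow_neg hr.le, mul_comm]

theorem exp_bd {t : ℝ} (ht : 0 < t) : t ^ 2 * exp (-t) ≤ (1 - exp (-t)) ^ 2 := by
  have h := Real.self_le_sinh_iff.2 (half_pos ht).le
  rw [Real.sinh_eq] at h
  have e1 : exp (-t) = exp (-(t / 2)) ^ 2 := by
    rw [← Real.exp_nat_mul]
    congr 1
    ring
  have e2 : exp (t / 2) * exp (-(t / 2)) = 1 := by rw [← Real.exp_add]; simp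
  have h0 := Real.exp_pos (-(t / 2))
  have h1 : t * exp (-(t / 2)) ≤ 1 - exp (-t) := by
    rw [e1]
    nlinarith
  calc t ^ 2 * exp (-t) = (t * exp (-(t / 2))) ^ 2 := by rw [mul_pow, ← e1]
    _ ≤ _ := pow_le_pow_left₀ (by positivity) h1 2

theorem lap {a c : ℕ → ℝ} (ha0 : ∀ n, 0 ≤ a n) (ha : Summable a) (N : ℕ) {b : ℝ} (hb : 0 < b)
    (h : ∀ x : ℝ, 0 < x → x < 1 →
      ∑ j ∈ range N, c j * x ^ j ≤ (∑' n, a n * x ^ n) / (1 - x) ^ 2) :
    b * (b + 1) * ∑ j ∈ range N, c j * (j + 2 : ℝ) ^ (-(b + 2)) ≤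
      ∑' n, a n * (n + 1 : ℝ) ^ (-b) := by
  have hG := Gamma_pos_of_pos hb
  have s1 : Summable fun n : ℕ => a n * (n + 1 : ℝ) ^ (-b) :=
    Summable.of_nonneg_of_le (fun n => mul_nonneg (ha0 n) (by positivity))
      (fun n => mul_le_of_le_one_right (ha0 n) (Real.rpow_le_one_of_one_le_of_nonpos
        (le_add_of_nonneg_left (Nat.cast_nonneg n)) (by linarith))) ha
  have i1 : ∀ n : ℕ, Integrable (fun t : ℝ => a n * (t ^ (b - 1) * exp (-((n + 1) * t))))
      (volume.restrict (Ioi 0)) := fun n => (gam_int hb (by positivity)).const_mul _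
  have v1 : ∀ n : ℕ, ∫ t : ℝ in Ioi 0, a n * (t ^ (b - 1) * exp (-((n + 1) * t))) =
      Gamma b * (a n * (n + 1 : ℝ) ^ (-b)) := fun n => by
    rw [integral_const_mul, gam_val hb (by positivity)]
    ring
  have s2 : Summable fun n : ℕ =>
      ∫ t : ℝ in Ioi 0, ‖a n * (t ^ (b - 1) * exp (-((n + 1) * t)))‖ := by
    refine (s1.mul_left (Gamma b)).congr fun n => ?_
    rw [← v1]
    refine setIntegral_congr_fun measurableSet_Ioi fun t ht => ?_
    have : 0 < t := ht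
    have := ha0 n
    exact (Real.norm_of_nonneg (by positivity)).symm
  have e1 := integral_tsum_of_summable_integral_norm i1 s2
  simp only [v1] at e1
  rw [tsum_mul_left] at e1
  have pw : ∀ (n : ℕ) (t k : ℝ), exp (-((n + k) * t)) = exp (-t) ^ n * exp (-(k * t)) := by
    intro n t k
    rw [← Real.exp_nat_mul, ← Real.exp_add]
    congr 1
    ring
  have e2 : ∀ t : ℝ, ∑' n : ℕ, a n * (t ^ (b - 1) * exp (-((n + 1) * t))) =
      (∑' n : ℕ, a n * exp (-t) ^ n) * (t ^ (b - 1) * exp (-(1 * t))) := by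
    intro t
    rw [← tsum_mul_right]
    refine tsum_congr fun n => ?_
    rw [pw]
    ring
  have i2 : Integrable (fun t : ℝ => ∑' n : ℕ, a n * (t ^ (b - 1) * exp (-((n + 1) * t))))
      (volume.restrict (Ioi 0)) := by
    refine Integrable.mono' ((gam_int hb one_pos).const_mul (∑' n, a n))
      (Measurable.tsum fun n => by fun_prop).aestronglyMeasurable ?_
    refine (ae_restrict_iff' measurableSet_Ioi).2 (Eventually.of_forall fun t ht => ?_)
    have ht' : 0 < t := ht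
    have l1 : ∀ n : ℕ, a n * exp (-t) ^ n ≤ a n := fun n => mul_le_of_le_one_right (ha0 n)
      (pow_le_one₀ (Real.exp_pos _).le (Real.exp_le_one_iff.2 (by linarith)))
    have l0 : ∀ n : ℕ, 0 ≤ a n * exp (-t) ^ n := fun n => mul_nonneg (ha0 n) (by positivity)
    rw [e2, Real.norm_of_nonneg (mul_nonneg (tsum_nonneg l0) (by positivity))]
    exact mul_le_mul_of_nonneg_right
      ((Summable.of_nonneg_of_le l0 l1 ha).tsum_le_tsum l1 ha) (by positivity)
  have i3 : ∀ j : ℕ, Integrable (fun t : ℝ => c j * (t ^ (b + 2 - 1) * exp (-((j + 2) * t))))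
      (volume.restrict (Ioi 0)) := fun n => (gam_int (by linarith) (by positivity)).const_mul _
  have e3 := integral_finsetSum (range N) fun j _ => i3 j
  have l2 := setIntegral_mono_on (integrable_finsetSum (range N) fun j _ => i3 j) i2
    measurableSet_Ioi fun t ht => by
      have ht' : 0 < t := ht
      have x1 : exp (-t) < 1 := Real.exp_lt_one_iff.2 (by linarith)
      have h1 := h (exp (-t)) (Real.exp_pos _) x1
      have l0 : 0 ≤ ∑' n : ℕ, a n * exp (-t) ^ n :=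
        tsum_nonneg fun n => mul_nonneg (ha0 n) (by positivity)
      have h2 := exp_bd ht'
      rw [e2]
      calc ∑ j ∈ range N, c j * (t ^ (b + 2 - 1) * exp (-((j + 2) * t)))
          = (∑ j ∈ range N, c j * exp (-t) ^ j) *
            (t ^ 2 * exp (-t) * (t ^ (b - 1) * exp (-(1 * t)))) := by
            rw [Finset.sum_mul]
            refine Finset.sum_congr rfl fun j _ => ?_
            rw [pw, show b + 2 - 1 = (2 : ℕ) + (b - 1) by push_cast; ring, Real.rpow_add ht',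
              Real.rpow_natCast, show -(2 * t) = -t + -(1 * t) by ring, Real.exp_add]
            ring
        _ ≤ (∑' n : ℕ, a n * exp (-t) ^ n) / (1 - exp (-t)) ^ 2 *
            (t ^ 2 * exp (-t) * (t ^ (b - 1) * exp (-(1 * t)))) :=
            mul_le_mul_of_nonneg_right h1 (by positivity)
        _ ≤ (∑' n : ℕ, a n * exp (-t) ^ n) / (1 - exp (-t)) ^ 2 *
            ((1 - exp (-t)) ^ 2 * (t ^ (b - 1) * exp (-(1 * t)))) := by gcongr
        _ = _ := by
            have : 1 - exp (-t) ≠ 0 := by linarith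
            field_simp
  rw [e3, ← e1] at l2
  have e4 : ∑ j ∈ range N, ∫ t : ℝ in Ioi 0, c j * (t ^ (b + 2 - 1) * exp (-((j + 2) * t))) =
      Gamma b * (b * (b + 1) * ∑ j ∈ range N, c j * (j + 2 : ℝ) ^ (-(b + 2))) := by
    rw [← mul_assoc, Finset.mul_sum]
    refine Finset.sum_congr rfl fun j _ => ?_
    rw [integral_const_mul, gam_val (by linarith) (by positivity),
      show Gamma (b + 2) = (b + 1) * (b * Gamma b) by
        rw [← Gamma_add_one hb.ne', ← Gamma_add_one (by linarith), add_assoc, one_add_one_eq_two]]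
    ring
  rw [e4] at l2
  exact le_of_mul_le_mul_left l2 hG

theorem pair (A B : ℂ) (j s : ℕ) : ‖A + B‖ ^ 2 * kk j s ≤
    s * ‖A‖ ^ 2 * (j + 2 : ℝ) ^ (-(1.13 + 2 : ℝ)) + j * ‖B‖ ^ 2 * (s + 2 : ℝ) ^ (-(1.13 + 2 : ℝ)) := by
  have hj : (0 : ℝ) ≤ j := Nat.cast_nonneg j
  have hs : (0 : ℝ) ≤ s := Nat.cast_nonneg s
  have e : ∀ y : ℝ, 0 ≤ y → (y + 2) ^ (4.13 : ℝ) = (y + 2) * (y + 2) ^ (1.13 + 2 : ℝ) := by
    intro y hy
    rw [show (4.13 : ℝ) = 1 + (1.13 + 2) by norm_num, Real.rpow_add (by positivity), Real.rpow_one]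
  rw [kk, e _ hj, e _ hs, Real.rpow_neg (by positivity), Real.rpow_neg (by positivity)]
  have hU : 0 < (j + 2 : ℝ) ^ (1.13 + 2 : ℝ) := by positivity
  have hV : 0 < (s + 2 : ℝ) ^ (1.13 + 2 : ℝ) := by positivity
  generalize (j + 2 : ℝ) ^ (1.13 + 2 : ℝ) = U at hU
  generalize (s + 2 : ℝ) ^ (1.13 + 2 : ℝ) = V at hV
  have h1 : ‖A + B‖ ^ 2 ≤ (‖A‖ + ‖B‖) ^ 2 := pow_le_pow_left₀ (norm_nonneg _) (norm_add_le _ _) 2
  have hA := norm_nonneg A
  have hB := norm_nonneg B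
  generalize ‖A‖ = α at *
  generalize ‖B‖ = β at *
  refine (mul_le_mul_of_nonneg_right h1 (by positivity)).trans ?_
  rw [← mul_div_assoc, div_le_iff₀ (by positivity)]
  have e2 : (s * α ^ 2 * U⁻¹ + j * β ^ 2 * V⁻¹) * ((j + 2) * U + (s + 2) * V) =
      (α + β) ^ 2 * (j * s) + (s * V * α - j * U * β) ^ 2 / (U * V) +
        2 * (s * α ^ 2 * U⁻¹ + j * β ^ 2 * V⁻¹) * (U + V) := by
    field_simp
    ring
  rw [e2]
  have : 0 ≤ (s * V * α - j * U * β) ^ 2 / (U * V) := by positivity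
  have : 0 ≤ 2 * (s * α ^ 2 * U⁻¹ + j * β ^ 2 * V⁻¹) * (U + V) := by positivity
  linarith

theorem diag_le {g : ℕ → ℕ → ℝ} (hg : ∀ j s, 0 ≤ g j s) (N : ℕ) :
    ∑ m ∈ range N, ∑ j ∈ range (m + 1), g j (m - j) ≤ ∑ j ∈ range N, ∑ s ∈ range N, g j s := by
  rw [Finset.sum_range_diag_flip]
  exact Finset.sum_le_sum fun j _ => Finset.sum_le_sum_of_subset_of_nonneg
    (Finset.range_subset_range.2 (Nat.sub_le _ _)) fun s _ _ => hg j s

theorem kk_nonneg (j s : ℕ) : 0 ≤ kk j s := by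
  unfold kk
  positivity

variable {f : ℂ → ℂ}

theorem Un.summ (hf : Un f) {R : ℝ} (hR : 0 < R) (hR1 : R < 1) :
    Summable fun n => ‖co (uu f) n‖ ^ 2 * R ^ n := by
  have := (hf.u_an.pars (Real.sqrt_pos.2 hR) ((Real.sqrt_lt' one_pos).2 (by simpa))).summable
  rwa [Real.sq_sqrt hR.le] at this

theorem Un.wt (hf : Un f) {R : ℝ} (hR : 0 < R) (hR1 : R < 1) (N : ℕ) :
    ∑ m ∈ range N, ‖co (uu f) (m + 1)‖ ^ 2 * R ^ (m + 1) *
      (1.13 * 2.13 / 2 * ∑ j ∈ range (m + 1), kk j (m - j)) ≤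
      ∑' n, ‖co (uu f) n‖ ^ 2 * R ^ n * (n + 1 : ℝ) ^ (-(1.13 : ℝ)) := by
  have h := lap (a := fun n => ‖co (uu f) n‖ ^ 2 * R ^ n)
    (c := fun j => ∑ s ∈ range N, s * ‖TT f j s‖ ^ 2 * R ^ (j + s + 1)) (b := 1.13)
    (fun n => by positivity) (hf.summ hR hR1) N (by norm_num) fun x hx hx1 => by
      have := hf.two hR hR1 hx hx1 N
      rw [Finset.sum_comm] at this
      simpa only [Finset.sum_mul] using this
  refine le_trans ?_ h
  simp only [Finset.sum_mul]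
  have h1 := diag_le (g := fun j s => ‖co (uu f) (j + s + 1)‖ ^ 2 * R ^ (j + s + 1) * kk j s)
    (fun j s => mul_nonneg (by positivity) (kk_nonneg j s)) N
  have h2 : ∑ j ∈ range N, ∑ s ∈ range N,
      ‖co (uu f) (j + s + 1)‖ ^ 2 * R ^ (j + s + 1) * kk j s ≤
      ∑ j ∈ range N, ∑ s ∈ range N,
        (s * ‖TT f j s‖ ^ 2 * R ^ (j + s + 1) * (j + 2 : ℝ) ^ (-(1.13 + 2 : ℝ)) +
        j * ‖TT f s j‖ ^ 2 * R ^ (s + j + 1) * (s + 2 : ℝ) ^ (-(1.13 + 2 : ℝ))) := by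
    refine Finset.sum_le_sum fun j _ => Finset.sum_le_sum fun s _ => ?_
    have := mul_le_mul_of_nonneg_left (pair (TT f j s) (TT f s j) j s)
      (pow_pos hR (j + s + 1)).le
    rw [hf.sym] at this
    rw [add_comm s j]
    linarith
  simp only [Finset.sum_add_distrib] at h2
  rw [Finset.sum_comm (f := fun j s : ℕ =>
    j * ‖TT f s j‖ ^ 2 * R ^ (s + j + 1) * (s + 2 : ℝ) ^ (-(1.13 + 2 : ℝ)))] at h2
  have e : ∑ m ∈ range N, ‖co (uu f) (m + 1)‖ ^ 2 * R ^ (m + 1) *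
      (1.13 * 2.13 / 2 * ∑ j ∈ range (m + 1), kk j (m - j)) =
      1.13 * 2.13 / 2 * ∑ m ∈ range N, ∑ j ∈ range (m + 1),
        ‖co (uu f) (j + (m - j) + 1)‖ ^ 2 * R ^ (j + (m - j) + 1) * kk j (m - j) := by
    rw [Finset.mul_sum]
    refine Finset.sum_congr rfl fun m _ => ?_
    rw [mul_left_comm, Finset.mul_sum]
    congr 1
    refine Finset.sum_congr rfl fun j hj => ?_
    rw [Nat.add_sub_cancel' (Nat.lt_succ_iff.1 (Finset.mem_range.1 hj))]
  rw [e]
  linarith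

theorem Un.bd (hf : Un f) : ∃ C : ℝ, ∀ R : ℝ, 0 < R → R < 1 →
    ∑' n, ‖co (uu f) n‖ ^ 2 * R ^ n * (n + 1 : ℝ) ^ (-(1.13 : ℝ)) ≤ C := by
  obtain ⟨c, hc, N₀, hN⟩ := num
  refine ⟨c * (∑ n ∈ range (N₀ + 1), ‖co (uu f) n‖ ^ 2) / (c - 1), fun R hR hR1 => ?_⟩
  set a : ℕ → ℝ := fun n => ‖co (uu f) n‖ ^ 2 * R ^ n * (n + 1 : ℝ) ^ (-(1.13 : ℝ)) with ha
  have a0 : ∀ n, 0 ≤ a n := fun n => by positivity
  have a1 : ∀ n, a n ≤ ‖co (uu f) n‖ ^ 2 * R ^ n := fun n =>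
    mul_le_of_le_one_right (by positivity) (Real.rpow_le_one_of_one_le_of_nonpos
        (le_add_of_nonneg_left (Nat.cast_nonneg n)) (by norm_num))
  have s1 : Summable a := Summable.of_nonneg_of_le a0 a1 (hf.summ hR hR1)
  have h1 : ∀ k : ℕ, ∑ i ∈ range k, a (i + (N₀ + 1)) ≤ (∑' n, a n) / c := by
    intro k
    rw [le_div_iff₀' (by linarith), Finset.mul_sum]
    refine le_trans ?_ (hf.wt hR hR1 (N₀ + k))
    rw [Finset.sum_range_add]
    refine le_add_of_nonneg_of_le (Finset.sum_nonneg fun m _ => mul_nonneg (by positivity)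
      (mul_nonneg (by norm_num) (Finset.sum_nonneg fun j _ => kk_nonneg _ _))) ?_
    refine Finset.sum_le_sum fun i _ => ?_
    have := mul_le_mul_of_nonneg_left (hN (N₀ + i) (Nat.le_add_right _ _))
      (show 0 ≤ ‖co (uu f) (N₀ + i + 1)‖ ^ 2 * R ^ (N₀ + i + 1) by positivity)
    refine le_trans (le_of_eq ?_) this
    rw [ha, show i + (N₀ + 1) = N₀ + i + 1 by ring]
    push_cast
    rw [add_assoc ((N₀ : ℝ) + i), one_add_one_eq_two]
    ring
  have h2 := Real.tsum_le_of_sum_range_le (fun i => a0 _) h1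
  have h3 := s1.sum_add_tsum_nat_add (N₀ + 1)
  have h4 : ∑ n ∈ range (N₀ + 1), a n ≤ ∑ n ∈ range (N₀ + 1), ‖co (uu f) n‖ ^ 2 :=
    Finset.sum_le_sum fun n _ => (a1 n).trans
      (mul_le_of_le_one_right (by positivity) (pow_le_one₀ hR.le hR1.le))
  rw [le_div_iff₀' (by linarith)] at h2
  rw [le_div_iff₀ (by linarith)]
  nlinarith

theorem pw_bd {R : ℝ} (hR : 0 < R) (hR1 : R < 1) (n : ℕ) :
    R ^ n ≤ 2 * exp 1 * (1 - R) ^ (-(1.13 : ℝ)) * (n + 1 : ℝ) ^ (-(1.13 : ℝ)) := by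
  have h0 : 0 < 1 - R := by linarith
  have hn : (0 : ℝ) ≤ n := Nat.cast_nonneg n
  rw [mul_assoc, ← Real.mul_rpow h0.le (by positivity)]
  set y := (1 - R) * (n + 1) with hy
  have hy0 : 0 < y := by positivity
  have h1 : R ^ n ≤ exp 1 * exp (-y) := by
    calc R ^ n ≤ exp (R - 1) ^ n :=
          pow_le_pow_left₀ hR.le (by linarith [Real.add_one_le_exp (R - 1)]) n
      _ = exp (n * (R - 1)) := (Real.exp_nat_mul _ _).symm
      _ ≤ exp (1 + -y) := Real.exp_le_exp.2 (by rw [hy]; nlinarith)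
      _ = _ := Real.exp_add _ _
  have h2 : y ^ (1.13 : ℝ) ≤ 2 * exp y := by
    have h3 := Real.quadratic_le_exp_of_nonneg hy0.le
    rcases le_total y 1 with h | h
    · have := Real.rpow_le_one hy0.le h (show (0 : ℝ) ≤ 1.13 by norm_num)
      nlinarith
    · have := Real.rpow_le_rpow_of_exponent_le h (show (1.13 : ℝ) ≤ (2 : ℕ) by norm_num)
      rw [Real.rpow_natCast] at this
      nlinarith
  refine h1.trans ?_
  rw [Real.rpow_neg hy0.le, Real.exp_neg, mul_comm 2, mul_assoc]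
  refine mul_le_mul_of_nonneg_left ?_ (Real.exp_pos 1).le
  rw [← div_eq_mul_inv, le_div_iff₀ (by positivity), inv_mul_le_iff₀ (Real.exp_pos y)]
  linarith

theorem Un.growth (hf : Un f) : ∃ C : ℝ, ∀ r : ℝ, 0 < r → r < 1 →
    circleAverage (fun w => ‖uu f w‖ ^ 2) 0 r ≤ C * (1 - r) ^ (-(1.13 : ℝ)) := by
  obtain ⟨C, hC⟩ := hf.bd
  refine ⟨2 * exp 1 * C, fun r h0 h1 => ?_⟩
  have h2 := hf.u_an.pars h0 h1
  have s1 : Summable fun n : ℕ => ‖co (uu f) n‖ ^ 2 * r ^ n * (n + 1 : ℝ) ^ (-(1.13 : ℝ)) :=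
    Summable.of_nonneg_of_le (fun n => by positivity) (fun n =>
      mul_le_of_le_one_right (by positivity) (Real.rpow_le_one_of_one_le_of_nonpos
        (le_add_of_nonneg_left (Nat.cast_nonneg n)) (by norm_num))) (hf.summ h0 h1)
  have h3 := hasSum_le (fun n => ?_) h2
    (s1.hasSum.mul_left (2 * exp 1 * (1 - r) ^ (-(1.13 : ℝ))))
  · have h4 : 0 < (1 - r) ^ (-(1.13 : ℝ)) := Real.rpow_pos_of_pos (by linarith) _
    have := mul_le_mul_of_nonneg_left (hC r h0 h1)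
      (show 0 ≤ 2 * exp 1 * (1 - r) ^ (-(1.13 : ℝ)) by positivity)
    linarith
  · have := mul_le_mul_of_nonneg_left (pw_bd h0 h1 n)
      (show 0 ≤ ‖co (uu f) n‖ ^ 2 * r ^ n by positivity)
    rw [← pow_mul, two_mul n, pow_add]
    linarith

end Vale.Agent.P142
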